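import Vale.Agent.P216SG.Defs
import Vale.Agent.P216T.Defs
import Vale.Agent.P216DC.Defs
import Vale.Agent.P216FI.Tube
import Vale.Agent.P216FL.Pol
import Vale.Agent.P216.Defs
import Mathlib.Geometry.Manifold.Riemannian.Basic
import Mathlib.LinearAlgebra.Matrix.GeneralLinearGroup.Defs

/-!
# P216C: the top layer. Definitions and block statements.
-/

open scoped Manifold ContDiff Topology ENNReal
open Set MeasureTheory Bundle

noncomputable section

namespace Vale.Agent.P216C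

open Vale.Agent.P216R Vale.Agent.P216SG Vale.Agent.P216DC
open Vale.Agent.P216FI (slab cusp)
open Vale.Agent.P216FL (sh)
open Vale.Agent.P216T (InC Pk)

section defs

variable {M : Type} [TopologicalSpace M] [ChartedSpace E3 M]

/-- the sign of `sg` is an orientation of `U` -/
structure IsOri (sg : M → ℝ) (U : Set M) : Prop where
  ne : ∀ x ∈ U, sg x ≠ 0
  loc : ∀ (f : E3 → M) (V : Set E3), LD E3 f V → MapsTo f V U → ∀ v ∈ V, ∀ᶠ w in 𝓝 v,
    0 < sg (f w) * (md E3 f w).det * (sg (f v) * (md E3 f v).det)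

/-- `U` is orientable -/
def Ori (U : Set M) : Prop := ∃ sg : M → ℝ, IsOri sg U

/-- `U` is a closed connected manifold of the class `C` -/
structure Mem (C : Cls) (U : Set M) : Prop where
  cls : C M U
  isOpen : IsOpen U
  cpt : IsCompact U
  hs : Hs U
  conn : IsPreconnected U

/-- area of the torus with periods `a`, `b` -/
def ar (a b : ℝ × ℝ) : ℝ := |a.1 * b.2 - a.2 * b.1|

/-- `ψ` parametrises the part with heights in `J` of a hyperbolic cusp with periods `a`, `b` -/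
structure Cusp (g : Ten E3 M) (U : Set M) (ψ : E3 → M) (a b : ℝ × ℝ) (J : Set ℝ) : Prop where
  ld : LD E3 ψ (slab J)
  mem : MapsTo ψ (slab J) U
  met : ∀ p ∈ slab J, comap ψ g p = cusp (-1) p
  eq_iff : ∀ p ∈ slab J, ∀ q ∈ slab J,
    ψ p = ψ q ↔ ∃ m n : ℤ, q = sh (m * a.1 + n * b.1) (m * a.2 + n * b.2) p
  pos : 0 < ar a b

/-- constant sectional curvature `κ` on `U` -/
def Const (g : Ten E3 M) (U : Set M) (κ : ℝ) : Prop := ∀ x ∈ U, SecGe g x κ ∧ SecLe g x κ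

end defs

/-- oriented manifolds with fundamental group `G` -/
def Cl (G : Type) [Group G] : Cls := fun _ _ _ U => InC G U ∧ Ori U

/-- `G` embeds into `GL 4 ℝ` -/
def Lin (G : Type) [Group G] : Prop := ∃ ρ : G →* GL (Fin 4) ℝ, Function.Injective ρ

/-- every metric on every member of the class has a thick point -/
def Thick (C : Cls) (w : ℝ) : Prop :=
  ∀ (M : Type) [TopologicalSpace M] [ChartedSpace E3 M] [IsManifold 𝓘(ℝ, E3) ∞ M]
    [MeasurableSpace M] [BorelSpace M] (U : Set M) (g : Ten E3 M), Mem C U → Met g U →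
    ∃ x ∈ U, ∀ r > 0, (∀ y ∈ bl g U x r, SecGe g y (-(1 / r ^ 2))) → Vl w g U x r

/-- **T0** (66): the start. -/
def T0 : Prop :=
  ∀ (E : Type) [NormedAddCommGroup E] [NormedSpace ℝ E] [FiniteDimensional ℝ E]
    (M : Type) [MetricSpace M] [CompactSpace M] [ChartedSpace E M] [IsManifold 𝓘(ℝ, E) ∞ M]
    [RiemannianBundle (fun x : M => TangentSpace 𝓘(ℝ, E) x)]
    [IsContMDiffRiemannianBundle 𝓘(ℝ, E) ∞ E (fun x : M => TangentSpace 𝓘(ℝ, E) x)]
    [IsRiemannianManifold 𝓘(ℝ, E) M] [Nonempty M], Module.finrank ℝ E = 3 →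
    (P216.primeClosedGeodesicImages M).Finite →
    ∃ (G : Type) (_ : Group G), Pk G ∧ ¬ Lin G ∧
      ∃ (N : Type) (_ : TopologicalSpace N) (_ : ChartedSpace E3 N) (_ : IsManifold 𝓘(ℝ, E3) ∞ N)
        (U : Set N) (g : Ten E3 N), Mem (Cl G) U ∧ Met g U

/-- **CUT** (66, 86) -/
def CUT : Prop := ∀ (G : Type) [Group G], Pk G → CutClosed (Cl G)

/-- **THIN** (67) -/
def THIN : Prop := ∀ (G : Type) [Group G], Pk G → ∃ w > 0, Thick (Cl G) w

/-- **HLIN** (31): closed hyperbolic members have a linear group. -/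
def HLIN : Prop :=
  ∀ (G : Type) [Group G] (M : Type) [TopologicalSpace M] [ChartedSpace E3 M]
    [IsManifold 𝓘(ℝ, E3) ∞ M] (U : Set M) (g : Ten E3 M), Mem (Cl G) U → Met g U →
    Const g U (-1) → Lin G

/-- **HYP** (31): the cusps of a complete oriented hyperbolic manifold of finite volume. -/
def HYP : Prop :=
  ∀ (X : Type) [TopologicalSpace X] [ChartedSpace E3 X] [IsManifold 𝓘(ℝ, E3) ∞ X] [T2Space X]
    [SecondCountableTopology X] [ConnectedSpace X] [MeasurableSpace X] [BorelSpace X]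
    (h : Ten E3 X), Met h univ → Cpl h univ → Const h univ (-1) → vol h univ ≠ ⊤ →
    (∀ K : Set X, IsCompact K → ∃ V, IsOpen V ∧ K ⊆ V ∧ Ori V) →
    ∃ (m : ℕ) (ψ : Fin m → E3 → X) (a b : Fin m → ℝ × ℝ),
      (∀ j, Cusp h univ (ψ j) (a j) (b j) (Ioi (-3))) ∧
      (∀ i j, i ≠ j → Disjoint (ψ i '' slab (Ioi (-3))) (ψ j '' slab (Ioi (-3)))) ∧
      (∀ L, 0 ≤ L → IsCompact (⋃ j, ψ j '' slab (Ioi L))ᶜ) ∧
      ∀ j L, 0 ≤ L → IsClosed (ψ j '' slab (Ici L))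

/-- **CVOL** (80): the volume of a part of a cusp. -/
def CVOL : Prop :=
  ∀ (M : Type) [TopologicalSpace M] [ChartedSpace E3 M] [IsManifold 𝓘(ℝ, E3) ∞ M]
    [MeasurableSpace M] [BorelSpace M] (U : Set M) (g : Ten E3 M) (ψ : E3 → M) (a b : ℝ × ℝ)
    (s t : ℝ), s ≤ t → Cusp g U ψ a b (Ioo s t) →
    vol g (ψ '' slab (Ioo s t)) =
      ENNReal.ofReal (ar a b * (Real.exp (-2 * s) - Real.exp (-2 * t)) / 2)

/-- **FILL** (97, 80, 66): Dehn filling along the torus at height zero of an exact cusp collar.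
Either the thick side `V` is kept, or the other side. -/
def FILL : Prop :=
  ∀ (G : Type) [Group G], Pk G → ∀ (M : Type) [TopologicalSpace M] [ChartedSpace E3 M]
    [IsManifold 𝓘(ℝ, E3) ∞ M] [MeasurableSpace M] [BorelSpace M] (U : Set M) (g : Ten E3 M)
    (ψ : E3 → M) (a b : ℝ × ℝ) (β : ℝ), Mem (Cl G) U → Met g U → 1 ≤ β →
    Cusp g U ψ a b (Ioo (-3) β) →
    ∃ (M' : Type) (_ : TopologicalSpace M') (_ : ChartedSpace E3 M')
      (_ : IsManifold 𝓘(ℝ, E3) ∞ M') (_ : MeasurableSpace M') (_ : BorelSpace M') (U' : Set M')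
      (g' : Ten E3 M') (V W : Set M) (i : M → M') (T : Set M'), Mem (Cl G) U' ∧ Met g' U' ∧
      IsOpen W ∧ Disjoint V W ∧ U = V ∪ W ∪ ψ '' slab {0} ∧
      LD E3 i V ∧ InjOn i V ∧ (∀ x ∈ V, comap i g' x = g x) ∧
      U' = i '' V ∪ T ∧ Disjoint (i '' V) T ∧ T.Nonempty ∧ (∀ y ∈ T, -6 ≤ Sc g' y) ∧
      ((MapsTo ψ (slab (Ioo 0 β)) W ∧ vol g' T < ENNReal.ofReal (ar a b / 2)) ∨
        (MapsTo ψ (slab (Ioo (-3) 0)) W ∧ vol g' T ≤ ENNReal.ofReal (12 * ar a b)))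

/-- **GF** (63, 64): good Ricci flows with surgery, with constants that do not depend on the
initial metric. -/
def GF : Prop :=
  ∀ (C : Cls) (w T : ℝ), 0 < w → 0 < T → CutClosed C → Thick C w →
    (∀ (M : Type) [TopologicalSpace M] [ChartedSpace E3 M] (U : Set M), C M U → Ori U) →
    ∃ ρ > 0, ∃ c : ℕ → ℝ, (∀ D, 0 < c D) ∧
    ∀ (N : Type) [TopologicalSpace N] [ChartedSpace E3 N] [IsManifold 𝓘(ℝ, E3) ∞ N]
      [MeasurableSpace N] [BorelSpace N] (U₀ : Set N) (g₀ : Ten E3 N), Mem C U₀ → Met g₀ U₀ →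
      ∀ A : ℕ, ∃ (M : Type) (_ : TopologicalSpace M) (_ : ChartedSpace E3 M)
        (_ : IsManifold 𝓘(ℝ, E3) ∞ M) (_ : MeasurableSpace M) (_ : BorelSpace M)
        (g : ℝ → Ten E3 M) (b d : M → ℝ), SF g b d 0 T ∧ (∀ U t, Sl b d 0 T U t → Mem C U) ∧
        vol (g 0) (postS b d 0) ≤ vol g₀ U₀ ∧
        (∀ a, (∀ x ∈ U₀, a ≤ Sc g₀ x) → ∀ x ∈ postS b d 0, a ≤ Sc (g 0) x) ∧
        (∀ t ∈ Ioo 0 T, vol (g t) (postS b d t) ≤ vol (g t) (preS b d t) ∧
          ∀ a ≤ 0, (∀ x ∈ preS b d t, a ≤ Sc (g t) x) → ∀ x ∈ postS b d t, a ≤ Sc (g t) x) ∧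
        ∃ x ∈ preS b d T, Sc (g T) x ≤ 1 / ρ ^ 2 ∧ ∀ D ≤ A, ∀ y ∈ bl (g T) (preS b d T) x D,
          Sc (g T) y ≤ 1 / ρ ^ 2 →
            ParB g (preS b d T) y T (c D) (c D ^ 2) (1 / c D ^ 2) ∧
              Vl (c D) (g T) (preS b d T) y (c D / 2)

/-- **RMIN**: the lower bound for the scalar curvature on closed manifolds. -/
def RMIN : Prop :=
  ∀ (M : Type) [TopologicalSpace M] [ChartedSpace E3 M] [IsManifold 𝓘(ℝ, E3) ∞ M]
    (g : ℝ → Ten E3 M) (U : Set M) (s t c : ℝ), s ≤ t → 0 < s + c → RF g (Icc s t) U →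
    IsCompact U → Hs U → (∀ x ∈ U, -(3 / (2 * (s + c))) ≤ Sc (g s) x) →
    ∀ x ∈ U, -(3 / (2 * (t + c))) ≤ Sc (g t) x

/-- **VD**: distortion of the volume from a lower bound for the scalar curvature. -/
def VD : Prop :=
  ∀ (M : Type) [TopologicalSpace M] [ChartedSpace E3 M] [IsManifold 𝓘(ℝ, E3) ∞ M]
    [MeasurableSpace M] [BorelSpace M] (g : ℝ → Ten E3 M) (U K A : Set M) (s t : ℝ)
    (φ φ' : ℝ → ℝ), s ≤ t → RF g (Icc s t) U → IsCompact K → K ⊆ U → A ⊆ K → MeasurableSet A →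
    (∀ u ∈ Icc s t, HasDerivAt φ (φ' u) u) → (∀ u ∈ Icc s t, ∀ x ∈ A, φ' u ≤ Sc (g u) x) →
    vol (g t) A ≤ ENNReal.ofReal (Real.exp (φ s - φ t)) * vol (g s) A

/-- **EIN**: the case of equality in the lower bound for the scalar curvature. -/
def EIN : Prop :=
  ∀ (M : Type) [TopologicalSpace M] [ChartedSpace E3 M] [IsManifold 𝓘(ℝ, E3) ∞ M]
    (g : ℝ → Ten E3 M) (U : Set M) (s t c : ℝ), s < t → 0 < s + c → RF g (Icc s t) U →
    (∀ u ∈ Icc s t, ∀ x ∈ U, Sc (g u) x = -(3 / (2 * (u + c)))) →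
    Const (g t) U (-(1 / (4 * (t + c))))

/-- the goal -/
def GOAL : Prop :=
  ∀ (E : Type) [NormedAddCommGroup E] [NormedSpace ℝ E] [FiniteDimensional ℝ E]
    (M : Type) [MetricSpace M] [CompactSpace M] [ChartedSpace E M] [IsManifold 𝓘(ℝ, E) ∞ M]
    [RiemannianBundle (fun x : M => TangentSpace 𝓘(ℝ, E) x)]
    [IsContMDiffRiemannianBundle 𝓘(ℝ, E) ∞ E (fun x : M => TangentSpace 𝓘(ℝ, E) x)]
    [IsRiemannianManifold 𝓘(ℝ, E) M] [Nonempty M], Module.finrank ℝ E = 3 →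
    (P216.primeClosedGeodesicImages M).Infinite

end Vale.Agent.P216C
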