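import Vale.Agent.P216C.Mono
import Vale.Agent.P216DC.CvC
import Vale.Agent.P216BF.Scal

/-!
# P216C: limits of almost minimal flows are hyperbolic
-/

open scoped Manifold ContDiff Topology ENNReal
open Set MeasureTheory Filter

set_option linter.unusedSectionVars false

noncomputable section

namespace Vale.Agent.P216C

open Vale.Agent.P216R Vale.Agent.P216SG Vale.Agent.P216DC Vale.Agent.P216U

section par

variable {M : Type} [TopologicalSpace M] [ChartedSpace E3 M] [IsManifold 𝓘(ℝ, E3) ∞ M]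
  {g : ℝ → Ten E3 M} {U : Set M} {x : M} {t r r' τ τ' K : ℝ}

theorem parB_mono (h : ParB g U x t r τ K) (hm : Met (g t) U) (hr : r' ≤ r) (hτ : τ' ≤ τ) :
    ParB g U x t r' τ' K :=
  have h1 : Icc (t - τ') t ⊆ Icc (t - τ) t := Icc_subset_Icc_left (by linarith)
  ⟨RF.mono h.1 h1 (hm.isOpen_bl x r') (bl_mono hr), fun s hs y hy => h.2 s (h1 hs) y (bl_mono hr hy)⟩

theorem parB_shift (h : ParB g U x t r τ K) : ParB (fun s => g (t + s)) U x 0 r τ K := by
  have h1 : MapsTo (fun s => t + s) (Icc (0 - τ) 0) (Icc (t - τ) t) := fun s hs =>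
    ⟨by linarith [hs.1], by linarith [hs.2]⟩
  refine ⟨?_, fun s hs y hy => h.2 _ (h1 hs) y (by simpa using hy)⟩
  simpa [Par] using RF.shift h.1 t h1

end par

variable {ι : Type} {M : ι → Type} [∀ n, TopologicalSpace (M n)] [∀ n, ChartedSpace E3 (M n)]
  [∀ n, IsManifold 𝓘(ℝ, E3) ∞ (M n)] [∀ n, MeasurableSpace (M n)] [∀ n, BorelSpace (M n)]

theorem conv_vol {l : Filter ι} {U : ∀ n, Set (M n)} {g : ∀ n, Ten E3 (M n)} {X : Type}
    [TopologicalSpace X] [ChartedSpace E3 X] [IsManifold 𝓘(ℝ, E3) ∞ X] [MeasurableSpace X]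
    [BorelSpace X] {F : ∀ n, X → M n} {h : Ten E3 X} {W K A : Set X} (hc : Conv l U g F h W)
    (hg : ∀ᶠ n in l, Met (g n) (U n)) (hK : IsCompact K) (hs : K ⊆ W) (hA : MeasurableSet A)
    (hAK : A ⊆ K) : Tendsto (fun n => (vol (g n)).real (F n '' A)) l (𝓝 ((vol h).real A)) := by
  obtain ⟨V, -, h1, h2, h3⟩ := hc.ai hK hs
  have f0 : vol h A ≠ ⊤ := measure_ne_top_of_subset hAK (vol_lt_top hc.met hK hs).ne
  have key : ∀ s > 1, ∀ᶠ n in l, (vol (g n)).real (F n '' A) ≤ s ^ 3 * (vol h).real A ∧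
      (vol h).real A ≤ s ^ 3 * (vol (g n)).real (F n '' A) := by
    intro s hs1
    filter_upwards [h3 s hs1, hg] with n H hm
    have s0 : 0 < s := by linarith
    have m1 := hm.comap H.ld H.mt
    have e := vol_image (g n) H.ld H.inj hK.isLindelof h1 hA hAK
    have p1 : ∀ x ∈ A, _ := fun x hx => m1.pd (h1 (hAK hx))
    have p2 : ∀ x ∈ A, _ := fun x hx => hc.met.pd (hs (hAK hx))
    have a1 := vol_le_mul hK.isLindelof hA hAK s0 p1 p2 fun x hx => H.le x (h1 (hAK hx))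
    have a2 := vol_le_mul hK.isLindelof hA hAK s0 p2 p1 fun x hx => H.ge x (h1 (hAK hx))
    have f1 : vol (comap (F n) (g n)) A ≠ ⊤ :=
      measure_ne_top_of_subset hAK (vol_lt_top m1 hK h1).ne
    have b1 := ENNReal.toReal_mono (ENNReal.mul_ne_top ENNReal.ofReal_ne_top f0) a1
    have b2 := ENNReal.toReal_mono (ENNReal.mul_ne_top ENNReal.ofReal_ne_top f1) a2
    rw [ENNReal.toReal_mul, ENNReal.toReal_ofReal (by positivity), finrank_euclideanSpace_fin]
      at b1 b2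
    rw [Measure.real, e]
    exact ⟨b1, b2⟩
  have ct : ∀ z : ℝ, Tendsto (fun s : ℝ => s ^ 3 * z) (𝓝[>] 1) (𝓝 z) := fun z => by
    have : Continuous fun s : ℝ => s ^ 3 * z := by fun_prop
    simpa using (this.tendsto 1).mono_left nhdsWithin_le_nhds
  refine tendsto_order.2 ⟨fun z hz => ?_, fun z hz => ?_⟩
  · obtain ⟨s, k1, k2⟩ := (((ct z).eventually (gt_mem_nhds hz)).and self_mem_nhdsWithin).exists
    filter_upwards [key s k2] with n hn
    have : 0 < s ^ 3 := pow_pos (lt_trans one_pos k2) 3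
    exact lt_of_mul_lt_mul_left (k1.trans_le hn.2) this.le
  · obtain ⟨s, k1, k2⟩ := (((ct _).eventually (gt_mem_nhds hz)).and self_mem_nhdsWithin).exists
    filter_upwards [key s k2] with n hn using hn.1.trans_lt k1

theorem wt_add (T c u : ℝ) : wt (T + c) u = wt c (T + u) := by
  simp only [wt, ph]; congr 3; ring

theorem near_lim (L0 : LIM0) (L1 : LIM1) (hV : VD) (hE : EIN) {l : Ultrafilter ι} {C : Cls}
    {g : ∀ n, ℝ → Ten E3 (M n)} {b d : ∀ n, M n → ℝ} {T c v : ℝ} {η : ι → ℝ} {x : ∀ n, M n}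
    {ρ : ℝ≥0∞} (hc : 0 < c) (hη : Tendsto η l (𝓝 0))
    (h : ∀ n, NF C (g n) (b n) (d n) T c v (η n)) (hx : ∀ n, x n ∈ preS (b n) (d n) T)
    (par : ∀ r > 0, ENNReal.ofReal r < ρ → ∃ τ > 0, ∃ K, ∀ᶠ n in (l : Filter ι),
      ParB (g n) (preS (b n) (d n) T) (x n) T r τ K)
    (vl : ∃ w > 0, ∃ s > 0, ENNReal.ofReal s < ρ ∧ ∀ᶠ n in (l : Filter ι),
      Vl w (g n T) (preS (b n) (d n) T) (x n) s) :
    ∃ L : Lim l (fun n => preS (b n) (d n) T) (fun n => g n T) x ρ,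
      Const L.h univ (-(1 / (4 * (T + c)))) ∧ ∀ p, Sc L.h p = -(3 / (2 * (T + c))) := by
  set U : ∀ n, Set (M n) := fun n => preS (b n) (d n) T with hU
  have met : ∀ n, Met (g n T) (U n) := fun n => (h n).sf.met (sl_pre ⟨(h n).sf.lt, le_rfl⟩)
  have met' : ∀ n, Met (g n (T + 0)) (U n) := by simpa using met
  have evp : ∀ r τ K, (∀ᶠ n in (l : Filter ι), ParB (g n) (U n) (x n) T r τ K) → ∀ r' ≤ r,
      ∀ τ' ≤ τ, EvP l U (fun n s => g n (T + s)) x r' τ' := fun r τ K H r' h1 τ' h2 =>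
    ⟨K, H.mono fun n hn => ⟨((met' n).cpl (h n).mem.cpt).cpt (hx n) _,
      parB_shift (parB_mono hn (met n) h1 h2)⟩⟩
  obtain ⟨L⟩ := L0 ι l M U (fun n s => g n (T + s)) x ρ ⟨met', fun n => (h n).mem.hs, hx,
    fun r h1 h2 => by
      obtain ⟨τ, h3, K, h4⟩ := par r h1 h2
      exact ⟨τ, h3, evp r τ K h4 r le_rfl τ le_rfl⟩, by simpa using vl⟩
  suffices H : ∃ L : Lim l U (fun n => g n (T + 0)) x ρ,
      Const L.h univ (-(1 / (4 * (T + c)))) ∧ ∀ p, Sc L.h p = -(3 / (2 * (T + c))) by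
    rwa [add_zero] at H
  refine ⟨L, ?_⟩
  suffices H : ∀ p, (SecGe L.h p (-(1 / (4 * (T + c)))) ∧ SecLe L.h p (-(1 / (4 * (T + c))))) ∧
      Sc L.h p = -(3 / (2 * (T + c))) from ⟨fun p _ => (H p).1, fun p => (H p).2⟩
  intro p
  obtain ⟨σ, -, p1, p2⟩ := ENNReal.lt_iff_exists_real_btwn.1 (L.lt p)
  have σ0 : 0 < σ := pos_of_mem_bl p1
  obtain ⟨τ, τ0, K, hP⟩ := par σ σ0 p2
  obtain ⟨G, HG⟩ := L1 ι l M U (fun n s => g n (T + s)) x ρ (.ofReal σ) (Ioc (-τ) 0) L met'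
    (fun n => (h n).mem.hs) (bk_Ioc τ0) fun r _ h2 τ' _ h4 => evp σ τ K hP r
      ((ENNReal.ofReal_lt_ofReal_iff σ0).1 h2).le τ' (by linarith [h4.1])
  set W : Set L.X := {p | ed L.h univ L.o p < ENNReal.ofReal σ} with hW
  have oW : IsOpen W := HG.rf.isOpen
  set B : ∀ n, Set (M n) := fun n => bl (g n T) (U n) (x n) σ with hB
  have liv : ∀ᶠ n in (l : Filter ι), B n ⊆ Liv (b n) (d n) (T - τ) T :=
    hP.mono fun n hn => (h n).sf.subset_liv (by linarith) hn.1.toFam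
  have τT : 0 ≤ T - τ := by
    obtain ⟨n, hn⟩ := hP.exists
    exact (h n).sf.le_of_fam (by linarith) hn.1.toFam (mem_bl_self (hx n) σ0)
  have mp : ∀ K', IsCompact K' → K' ⊆ W → ∀ᶠ n in (l : Filter ι), MapsTo (L.F n) K' (B n) :=
    fun K' h1 h2 => (lim_maps L h1 h2).mono fun n hn y hy => by
      have := hn y hy
      simp only [add_zero] at this
      exact this
  have mt : ∀ t ∈ Ioc (-τ) 0, ∀ᶠ n in (l : Filter ι), Met (g n (T + t)) (B n) := fun t ht =>
    hP.mono fun n hn => RF.met hn.1 ⟨by linarith [ht.1], by linarith [ht.2]⟩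
  have cv : ∀ t ∈ Ioc (-τ) 0, Conv l B (fun n => g n (T + t)) L.F (G t) W := fun t ht =>
    ⟨HG.rf.met ht, emb_of_maps L.conv.emb oW (subset_univ _) mp,
      fcv_slice HG.cv (bk_Ioc τ0).nice oW ht (τ := fun _ => t)
        (tendsto_const_pure.mono_right (pure_le_nhdsWithin ht))⟩
  have key : ∀ t ∈ Ioc (-τ) 0, ∀ q ∈ W, Sc (G t) q = -(3 / (2 * (t + (T + c)))) := by
    intro t ht q hq
    refine le_antisymm (not_lt.1 fun hlt => ?_) ?_
    swap
    · refine ge_of_tendsto (conv_sc_pt (cv t ht) (mt t ht) hq) ?_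
      filter_upwards [liv, mp {q} isCompact_singleton (singleton_subset_iff.2 hq)] with n h1 h2
      obtain ⟨Z, h3, h4⟩ := (h n).sf.exists_sl (u := T + t) (by linarith) le_rfl (h1 (h2 rfl))
        ⟨by linarith [ht.1], by linarith [ht.2]⟩
      have := (h n).sc Z _ h3 _ (h4 (h1 (h2 rfl)))
      rwa [show T + t + c = t + (T + c) by ring] at this
    obtain ⟨β, β0, hβ⟩ : ∃ β > 0, -(3 / (2 * (t + (T + c)))) + β < Sc (G t) q :=
      ⟨(Sc (G t) q + 3 / (2 * (t + (T + c)))) / 2, by linarith, by linarith⟩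
    have c1 : ContinuousAt (fun z : ℝ × L.X => -(3 / (2 * (z.1 + (T + c)))) + β) (t, q) := by
      have : 2 * (t + (T + c)) ≠ 0 := by linarith [ht.1]
      fun_prop (disch := exact this)
    have c2 := (c1.continuousWithinAt (s := Ioc (-τ) 0 ×ˢ W)).eventually_lt
      (P216BF.sc_cont HG.rf.toFam (t, q) ⟨ht, hq⟩) hβ
    rw [nhdsWithin_prod_eq, oW.nhdsWithin_eq hq] at c2
    obtain ⟨A, hA, B', hB', c3⟩ := mem_prod_iff.1 c2
    have c4 : A ∩ Ioc (-τ) 0 ∈ 𝓝[≤] t := by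
      rw [← nhdsWithin_Ioc_eq_nhdsLE ht.1]
      exact nhdsWithin_mono _ (Ioc_subset_Ioc_right ht.2) (inter_mem hA self_mem_nhdsWithin)
    obtain ⟨s, hs, c5⟩ := mem_nhdsLE_iff_exists_Icc_subset.1 c4
    have hsI : s ∈ Ioc (-τ) 0 := (c5 ⟨le_rfl, hs.le⟩).2
    have : LocallyCompactSpace L.X := ChartedSpace.locallyCompactSpace E3 L.X
    obtain ⟨K', k1, k2, k3⟩ := local_compact_nhds (inter_mem hB' (oW.mem_nhds hq))
    have kW : K' ⊆ W := fun y hy => (k2 hy).2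
    have km := k3.isClosed.measurableSet
    have v1 := vd_real (c := T + c) (β := β) hV hs.le (by linarith [hsI.1])
      (HG.rf.mono_time fun u hu => (c5 hu).2) k3 kW Subset.rfl km
      fun u hu y hy => le_of_lt (c3 (mk_mem_prod (c5 hu).1 (k2 hy).1))
    have v2 : wt (T + c) s * (vol (G s)).real K' ≤ wt (T + c) t * (vol (G t)).real K' + 0 := by
      refine le_of_tendsto_of_tendsto
        ((conv_vol (cv s hsI) (mt s hsI) k3 kW km Subset.rfl).const_mul _)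
        (((conv_vol (cv t ht) (mt t ht) k3 kW km Subset.rfl).const_mul _).add hη) ?_
      obtain ⟨V, u1, -, u2⟩ := L.conv.emb K' k3 (subset_univ _)
      filter_upwards [liv, mp K' k3 kW, u2] with n h1 h2 h3
      rw [wt_add, wt_add]
      exact (h n).near _ _ (by linarith [hsI.1]) (by linarith) (by linarith [ht.2]) _
        (h3.1.meas_image h3.2.1 km u1) ((h2.image_subset.trans h1).trans
          (liv_mono (by linarith [hsI.1]) (by linarith [ht.2])))
    have v3 : 0 < wt (T + c) s * (vol (G s)).real K' := mul_pos (wt_pos _ _)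
      (ENNReal.toReal_pos (vol_pos (HG.rf.met hsI) hq k1).ne' (vol_lt_top (HG.rf.met hsI) k3 kW).ne)
    have v4 : Real.exp (-(β * (t - s))) < 1 :=
      Real.exp_lt_one_iff.2 (neg_lt_zero.2 (mul_pos β0 (sub_pos.2 hs)))
    nlinarith
  have e : G 0 =ᶠ[𝓝 p] L.h := HG.zero.eventuallyEq_of_mem (oW.mem_nhds p1)
  have sub : Icc (-τ / 2) 0 ⊆ Ioc (-τ) 0 := fun u hu => ⟨by linarith [hu.1], hu.2⟩
  have k1 := hE L.X G W (-τ / 2) 0 (T + c) (by linarith) (by linarith) (HG.rf.mono_time sub)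
    (fun u hu => key u (sub hu)) p p1
  have k2 := key 0 ⟨by linarith, le_rfl⟩ p p1
  rw [zero_add] at k1 k2
  rwa [← SecGe_congr e, ← SecLe_congr e, ← Sc_congr e, and_iff_left k2]

end Vale.Agent.P216C
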