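import Vale.Agent.P216R.Exist

/-!
# P216C: good Ricci flows with surgery (statement)
-/

open scoped Manifold ContDiff Topology ENNReal
open Set MeasureTheory

noncomputable section

namespace Vale.Agent.P216C

open Vale.Agent.P216R Vale.Agent.P216SG Vale.Agent.P216DC

/-- **GF2**: good Ricci flows with surgery, with constants that do not depend on the initial
metric. -/
def GF2 : Prop :=
  ∀ (C : Cls) (w T : ℝ), 0 < w → 0 < T → CutClosed C → Thick C w → ImgClosed C →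
    (∀ (M : Type) [TopologicalSpace M] [ChartedSpace E3 M] (U : Set M), C M U → Ori U) →
    ∃ ρ > 0, ∃ c : ℕ → ℝ, (∀ D, 0 < c D) ∧
    ∀ (N : Type) [TopologicalSpace N] [ChartedSpace E3 N] [IsManifold 𝓘(ℝ, E3) ∞ N]
      [MeasurableSpace N] [BorelSpace N] (U₀ : Set N) (g₀ : Ten E3 N), Mem C U₀ → Met g₀ U₀ →
      ∀ A : ℕ, ∃ (M : Type) (_ : TopologicalSpace M) (_ : ChartedSpace E3 M)
        (_ : IsManifold 𝓘(ℝ, E3) ∞ M) (_ : MeasurableSpace M) (_ : BorelSpace M)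
        (g : ℝ → Ten E3 M) (b d : M → ℝ), SF g b d 0 T ∧ (∀ U t, Sl b d 0 T U t → Mem C U) ∧
        vol (g 0) (postS b d 0) ≤ vol g₀ U₀ ∧
        (∀ a, (∀ x ∈ U₀, a ≤ Sc g₀ x) → ∀ x ∈ postS b d 0, a ≤ Sc (g 0) x) ∧
        (∀ t ∈ Ioo 0 T, vol (g t) (postS b d t) ≤ vol (g t) (preS b d t) ∧
          ∀ a ≤ 0, (∀ x ∈ preS b d t, a ≤ Sc (g t) x) → ∀ x ∈ postS b d t, a ≤ Sc (g t) x) ∧
        ∃ x ∈ preS b d T, Sc (g T) x ≤ 1 / ρ ^ 2 ∧ ∀ D ≤ A, ∀ y ∈ bl (g T) (preS b d T) x D,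
          Sc (g T) y ≤ 1 / ρ ^ 2 →
            ParB g (preS b d T) y T (c D) (c D ^ 2) (1 / c D ^ 2) ∧
              Vl (c D) (g T) (preS b d T) y (c D / 2)

end Vale.Agent.P216C
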