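import Vale.Agent.P216T.Asm
import Vale.Agent.P216TK.T0
import Vale.Agent.P216R.Fin
import Vale.Agent.P216FA.Cutl
import Vale.Agent.P216SO.Sout
import Vale.Agent.P216E.NC

/-!
# P216C: closed three manifolds have infinitely many closed geodesics
-/

namespace Vale.Agent.P216C

theorem goal : GOAL :=
  P216T.goal_mod P216TK.old (P216R.gf2_of P216SO.sout' P216FA.cutl_all P216E.nc_main)

end Vale.Agent.P216C
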