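import Vale.Agent.P216C.Near
import Vale.Agent.P216C.GF

/-!
# P216C: an almost minimal sequence with a complete hyperbolic limit
-/

open scoped Manifold ContDiff Topology ENNReal
open Set MeasureTheory Filter

set_option linter.unusedSectionVars false

noncomputable section

namespace Vale.Agent.P216C

open Vale.Agent.P216R Vale.Agent.P216SG Vale.Agent.P216DC Vale.Agent.P216U

variable {ι : Type} {M : ι → Type} [∀ n, TopologicalSpace (M n)] [∀ n, ChartedSpace E3 (M n)]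
  [∀ n, IsManifold 𝓘(ℝ, E3) ∞ (M n)] [∀ n, MeasurableSpace (M n)] [∀ n, BorelSpace (M n)]

theorem full_lim (L0 : LIM0) (L1 : LIM1) (hV : VD) (hE : EIN) {l : Ultrafilter ι} {C : Cls}
    {g : ∀ n, ℝ → Ten E3 (M n)} {b d : ∀ n, M n → ℝ} {T c v ρ : ℝ} {η : ι → ℝ} {x : ∀ n, M n}
    {e : ℕ → ℝ} (hc : 0 < c) (hρ : 0 < ρ) (he : ∀ D, 0 < e D) (hη : Tendsto η l (𝓝 0))
    (h : ∀ n, NF C (g n) (b n) (d n) T c v (η n)) (hx : ∀ n, x n ∈ preS (b n) (d n) T)
    (h0 : ∀ n, Sc (g n T) (x n) ≤ 1 / ρ ^ 2)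
    (H : ∀ D : ℕ, ∀ᶠ n in (l : Filter ι), ∀ y ∈ bl (g n T) (preS (b n) (d n) T) (x n) D,
      Sc (g n T) y ≤ 1 / ρ ^ 2 →
        ParB (g n) (preS (b n) (d n) T) y T (e D) (e D ^ 2) (1 / e D ^ 2) ∧
          Vl (e D) (g n T) (preS (b n) (d n) T) y (e D / 2)) :
    ∃ L : Lim l (fun n => preS (b n) (d n) T) (fun n => g n T) x ⊤,
      Const L.h univ (-(1 / (4 * (T + c)))) := by
  set U : ∀ n, Set (M n) := fun n => preS (b n) (d n) T with hU
  have sl : ∀ n, Sl (b n) (d n) 0 T (U n) T := fun n => sl_pre ⟨(h n).sf.lt, le_rfl⟩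
  have met : ∀ n, Met (g n T) (U n) := fun n => (h n).sf.met (sl n)
  have bd : ∀ D : ℕ, 0 < D → ∀ᶠ n in (l : Filter ι), ∀ y ∈ bl (g n T) (U n) (x n) D,
      Sc (g n T) y ≤ 1 / ρ ^ 2 := by
    intro D hD
    by_contra hn
    have h1 : ∀ n, ∃ z ∈ U n, (¬ ∀ y ∈ bl (g n T) (U n) (x n) D, Sc (g n T) y ≤ 1 / ρ ^ 2) →
        z ∈ bl (g n T) (U n) (x n) D ∧ Sc (g n T) z = 1 / ρ ^ 2 := by
      intro n
      by_cases h2 : ∀ y ∈ bl (g n T) (U n) (x n) D, Sc (g n T) y ≤ 1 / ρ ^ 2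
      · exact ⟨x n, hx n, fun h3 => absurd h2 h3⟩
      push Not at h2
      obtain ⟨y, h3, h4⟩ := h2
      have hD' : (0 : ℝ) < D := by exact_mod_cast hD
      obtain ⟨z, h5, h6⟩ := (isPathConnected_bl (hx n) hD').isConnected.isPreconnected.intermediate_value
        (mem_bl_self (hx n) hD') h3
        ((P216BF.sc_smooth (met n)).continuousOn.mono bl_subset) ⟨h0 n, h4.le⟩
      exact ⟨z, bl_subset h5, fun _ => ⟨h5, h6⟩⟩
    choose z hz1 hz2 using h1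
    have h2 := (Ultrafilter.eventually_not.2 hn).mono hz2
    have h3 := (h2.and (H D)).mono fun n hn => hn.2 _ hn.1.1 hn.1.2.le
    have e0 := he D
    obtain ⟨L, -, h4⟩ := near_lim L0 L1 hV hE (ρ := .ofReal (e D)) hc hη h hz1
      (fun r _ h5 => ⟨e D ^ 2, by positivity, _, h3.mono fun n hn => parB_mono hn.1 (met n)
        ((ENNReal.ofReal_lt_ofReal_iff e0).1 h5).le le_rfl⟩)
      ⟨_, e0, e D / 2, by positivity, (ENNReal.ofReal_lt_ofReal_iff e0).2 (by linarith),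
        h3.mono fun n hn => hn.2⟩
    have h5 := conv_sc_pt L.conv (Eventually.of_forall met) (mem_univ L.o)
    have h6 : Tendsto (fun n => Sc (g n T) (L.F n L.o)) l (𝓝 (1 / ρ ^ 2)) :=
      tendsto_const_nhds.congr' ((h2.and L.base).mono fun n hn => by
        simp only [hn.2]; exact hn.1.2.symm)
    have h7 := tendsto_nhds_unique h5 h6
    rw [h4] at h7
    obtain ⟨n, -⟩ := h2.exists
    have h8 := (h n).sf.lt
    have h9 : 0 < 3 / (2 * (T + c)) := by positivity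
    have h10 : 0 < 1 / ρ ^ 2 := by positivity
    linarith
  have all : ∀ D : ℕ, 0 < D → ∀ᶠ n in (l : Filter ι), ∀ y ∈ bl (g n T) (U n) (x n) D,
      ParB (g n) (U n) y T (e D) (e D ^ 2) (1 / e D ^ 2) ∧ Vl (e D) (g n T) (U n) y (e D / 2) :=
    fun D hD => ((bd D hD).and (H D)).mono fun n hn y hy => hn.2 y hy (hn.1 y hy)
  obtain ⟨L, h1, -⟩ := near_lim L0 L1 hV hE (ρ := ⊤) hc hη h hx (fun r h1 _ => by
      obtain ⟨D, h2⟩ := exists_nat_gt r
      have e0 := he D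
      refine ⟨e D ^ 2, by positivity, 1 / e D ^ 2,
        (all D (by exact_mod_cast h1.trans h2)).mono fun n hn => ⟨?_, fun s hs y hy => ?_⟩⟩
      · refine (h n).sf.rf_of_born (sl n) (sub_lt_self _ (by positivity)) ((met n).isOpen_bl _ _)
          bl_subset fun y hy => ?_
        exact ((h n).sf.subset_liv (sub_le_self _ (by positivity))
          (hn y (bl_mono h2.le hy)).1.1.toFam (mem_bl_self (bl_subset hy) e0)).1
      · exact (hn y (bl_mono h2.le hy)).1.2 s hs y (mem_bl_self (bl_subset hy) e0))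
    ⟨_, he 1, e 1 / 2, half_pos (he 1), ENNReal.ofReal_lt_top,
      (all 1 one_pos).mono fun n hn => (hn _ (mem_bl_self (hx n) (by norm_num))).2⟩
  exact ⟨L, h1⟩

/-- an almost minimal sequence with a complete hyperbolic limit -/
structure Mini (C : Cls) (v : ℝ) (l : Filter ι) (U : ∀ n, Set (M n)) (g : ∀ n, Ten E3 (M n)) :
    Prop where
  low : Low C v
  mem : ∀ n, Mem C (U n)
  met : ∀ n, Met (g n) (U n)
  sc : ∀ n, ∀ y ∈ U n, -6 ≤ Sc (g n) y
  vol : ∀ ε > 0, ∀ᶠ n in l, (vol (g n)).real (U n) ≤ v + ε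

theorem exists_low {C : Cls} {N : Type} [TopologicalSpace N] [ChartedSpace E3 N]
    [IsManifold 𝓘(ℝ, E3) ∞ N] {U : Set N} {g : Ten E3 N} (hm : Mem C U) (hg : Met g U) :
    ∃ v, Low C v ∧ ∀ ε > 0, ∃ (M : Type) (_ : TopologicalSpace M) (_ : ChartedSpace E3 M)
      (_ : IsManifold 𝓘(ℝ, E3) ∞ M) (_ : MeasurableSpace M) (_ : BorelSpace M) (U : Set M)
      (g : Ten E3 M), Mem C U ∧ Met g U ∧ (∀ x ∈ U, -6 ≤ Sc g x) ∧ (vol g).real U < v + ε := by
  let S : Set ℝ := {z | ∃ (M : Type) (_ : TopologicalSpace M) (_ : ChartedSpace E3 M)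
    (_ : IsManifold 𝓘(ℝ, E3) ∞ M) (_ : MeasurableSpace M) (_ : BorelSpace M) (U : Set M)
    (g : Ten E3 M), Mem C U ∧ Met g U ∧ (∀ x ∈ U, -6 ≤ Sc g x) ∧ (vol g).real U = z}
  have hb : BddBelow S := ⟨0, by
    rintro _ ⟨M, _, _, _, _, _, U, g, -, -, -, rfl⟩
    exact measureReal_nonneg⟩
  have hne : S.Nonempty := by
    obtain ⟨a, ha⟩ := hm.cpt.bddBelow_image (P216BF.sc_smooth hg).continuousOn
    have h0 : 0 < |a| + 1 := by positivity
    borelize N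
    refine ⟨_, N, _, _, inferInstance, _, inferInstance, U, (|a| + 1) • g, hm, hg.smul h0,
      fun x hx => ?_, rfl⟩
    rw [Sc_smul _ _ h0.ne', ← div_eq_inv_mul, le_div_iff₀ h0]
    linarith [ha (mem_image_of_mem _ hx), neg_abs_le a, abs_nonneg a]
  refine ⟨sInf S, fun M _ _ _ _ _ U g h1 h2 h3 =>
    csInf_le hb ⟨M, _, _, inferInstance, _, inferInstance, U, g, h1, h2, h3, rfl⟩, fun ε hε => ?_⟩
  obtain ⟨_, ⟨M, _, _, _, _, _, U, g, h1, h2, h3, rfl⟩, h4⟩ :=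
    exists_lt_of_csInf_lt hne (lt_add_of_pos_right (sInf S) hε)
  exact ⟨M, _, _, inferInstance, _, inferInstance, U, g, h1, h2, h3, h4⟩

theorem exists_mini (hG : GF2) (hR : RMIN) (L0 : LIM0) (L1 : LIM1) (hV : VD) (hE : EIN) {C : Cls}
    {w : ℝ} (hw : 0 < w) (h1 : CutClosed C) (h2 : Thick C w) (h4 : ImgClosed C)
    (h3 : ∀ (M : Type) [TopologicalSpace M] [ChartedSpace E3 M] (U : Set M), C M U → Ori U)
    {N : Type} [TopologicalSpace N] [ChartedSpace E3 N] [IsManifold 𝓘(ℝ, E3) ∞ N] {U₀ : Set N}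
    {g₀ : Ten E3 N} (hm : Mem C U₀) (hg : Met g₀ U₀) :
    ∃ (v : ℝ) (l : Ultrafilter ℕ) (M : ℕ → Type) (_ : ∀ n, TopologicalSpace (M n))
      (_ : ∀ n, ChartedSpace E3 (M n)) (_ : ∀ n, IsManifold 𝓘(ℝ, E3) ∞ (M n))
      (_ : ∀ n, MeasurableSpace (M n)) (_ : ∀ n, BorelSpace (M n)) (U : ∀ n, Set (M n))
      (g : ∀ n, Ten E3 (M n)) (x : ∀ n, M n) (L : Lim l U g x ⊤),
      Mini C v l U g ∧ Const L.h univ (-1) := by
  obtain ⟨v, hL, hv⟩ := exists_low hm hg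
  obtain ⟨ρ, hρ, e, he, H⟩ := hG C w (3 / 16) hw (by norm_num) h1 h2 h4 h3
  have key : ∀ n : ℕ, ∃ (M : Type) (_ : TopologicalSpace M) (_ : ChartedSpace E3 M)
      (_ : IsManifold 𝓘(ℝ, E3) ∞ M) (_ : MeasurableSpace M) (_ : BorelSpace M)
      (g : ℝ → Ten E3 M) (b d : M → ℝ) (x : M),
      NF C g b d (3 / 16) (1 / 16) v (1 / ((n : ℝ) + 1)) ∧ x ∈ preS b d (3 / 16) ∧
      Sc (g (3 / 16)) x ≤ 1 / ρ ^ 2 ∧ ∀ D ≤ n, ∀ y ∈ bl (g (3 / 16)) (preS b d (3 / 16)) x D,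
        Sc (g (3 / 16)) y ≤ 1 / ρ ^ 2 →
          ParB g (preS b d (3 / 16)) y (3 / 16) (e D) (e D ^ 2) (1 / e D ^ 2) ∧
            Vl (e D) (g (3 / 16)) (preS b d (3 / 16)) y (e D / 2) := by
    intro n
    obtain ⟨K, _, _, _, _, _, U, g, k1, k2, k3, k4⟩ := hv (1 / ((n : ℝ) + 1)) (by positivity)
    obtain ⟨M, _, _, _, _, _, G, b, d, m1, m2, m3, m4, m5, x, m6, m7, m8⟩ :=
      H K U (((1 / 2 : ℝ) ^ 2) • g) k1 (k2.smul (by norm_num)) n
    refine ⟨M, _, _, inferInstance, _, inferInstance, G, b, d, x,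
      nf_of hR hV hL (by norm_num) m1 m2 (m4 _ fun y hy => ?_) ?_ m5, m6, m7, m8⟩
    · rw [Sc_smul _ _ (by norm_num)]; linarith [k3 y hy]
    · rw [vol_smul k1.cpt.isLindelof k1.isOpen.measurableSet Subset.rfl (by norm_num)] at m3
      have m9 := ENNReal.toReal_mono (ENNReal.mul_ne_top ENNReal.ofReal_ne_top
        (vol_lt_top k2 k1.cpt Subset.rfl).ne) m3
      rw [ENNReal.toReal_mul, ENNReal.toReal_ofReal (by positivity),
        finrank_euclideanSpace_fin] at m9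
      obtain ⟨s, s0, s1, s2⟩ := exists_root (c := 1 / 16) (u := 0) (by norm_num)
      have s3 : s = 2 := by nlinarith
      rw [← s1, s3]
      change _ * (vol (G 0) (postS b d 0)).toReal ≤ _
      change (vol g U).toReal < _ at k4
      linarith
  choose M i1 i2 i3 i4 i5 g b d x k1 k2 k3 k4 using key
  have hl : (hyperfilter ℕ : Filter ℕ) ≤ atTop := Nat.hyperfilter_le_atTop
  have hη : Tendsto (fun n : ℕ => 1 / ((n : ℝ) + 1)) (hyperfilter ℕ) (𝓝 0) :=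
    tendsto_one_div_add_atTop_nhds_zero_nat.mono_left hl
  obtain ⟨L, hc⟩ := full_lim L0 L1 hV hE (by norm_num) hρ he hη k1 k2 k3 fun D =>
    ((eventually_ge_atTop D).filter_mono hl).mono fun n hn => k4 n D hn
  have sl : ∀ n, Sl (b n) (d n) 0 (3 / 16) (preS (b n) (d n) (3 / 16)) (3 / 16) :=
    fun n => sl_pre ⟨by norm_num, le_rfl⟩
  refine ⟨v, _, M, i1, i2, i3, i4, i5, _, _, x, L, ⟨hL, fun n => (k1 n).mem,
    fun n => (k1 n).sf.met (sl n), fun n y hy => ?_, fun ε hε => ?_⟩, by norm_num at hc; exact hc⟩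
  · have := (k1 n).sc _ _ (sl n) y hy
    norm_num at this; exact this
  · filter_upwards [hη.eventually (gt_mem_nhds hε)] with n hn
    have h4 := (k1 n).tot
    have h5 : wt (1 / 16) (3 / 16) = 1 := by norm_num [wt, ph]
    rw [h5] at h4
    linarith

end Vale.Agent.P216C
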