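import Vale.Agent.P216C.Piece
import Vale.Agent.P216R.Flow

/-!
# P216C: monotone quantities along a flow with surgery
-/

open scoped Manifold ContDiff Topology ENNReal
open Set MeasureTheory

set_option linter.unusedSectionVars false

noncomputable section

namespace Vale.Agent.P216C

open Vale.Agent.P216R Vale.Agent.P216SG Vale.Agent.P216DC

/-- logarithm of the weight -/
def ph (c u : ℝ) : ℝ := -(3 / 2) * Real.log (4 * (u + c))

/-- the weight of the volume -/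
def wt (c u : ℝ) : ℝ := Real.exp (ph c u)

theorem wt_pos (c u : ℝ) : 0 < wt c u := Real.exp_pos _

theorem hasDerivAt_ph {c u : ℝ} (h : 0 < u + c) : HasDerivAt (ph c) (-(3 / (2 * (u + c)))) u := by
  have h1 : HasDerivAt (fun u => 4 * (u + c)) 4 u := by
    simpa using ((hasDerivAt_id u).add_const c).const_mul 4
  refine ((h1.log (by positivity)).const_mul (-(3 / 2))).congr_deriv ?_
  field_simp

theorem exists_root {c u : ℝ} (h : 0 < u + c) :
    ∃ l > 0, l ^ 3 = wt c u ∧ l ^ 2 * (4 * (u + c)) = 1 := by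
  refine ⟨Real.exp (ph c u / 3), Real.exp_pos _, ?_, ?_⟩
  · rw [← Real.exp_nat_mul, wt]; congr 1; push_cast; ring
  · have e : ((2 : ℕ) : ℝ) * (ph c u / 3) = -Real.log (4 * (u + c)) := by
      rw [ph]; push_cast; ring
    rw [← Real.exp_nat_mul, e, Real.exp_neg, Real.exp_log (by positivity)]
    exact inv_mul_cancel₀ (by positivity)

variable {M : Type} [TopologicalSpace M] [ChartedSpace E3 M] [IsManifold 𝓘(ℝ, E3) ∞ M]
  [MeasurableSpace M] [BorelSpace M] {g : ℝ → Ten E3 M} {b d : M → ℝ} {T c v η : ℝ} {C : Cls}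

theorem Low.wt {U : Set M} {k : Ten E3 M} {t : ℝ} (h : Low C v) (hm : Mem C U) (hg : Met k U)
    (ht : 0 < t + c) (hs : ∀ x ∈ U, -(3 / (2 * (t + c))) ≤ Sc k x) :
    v ≤ wt c t * (vol k).real U := by
  obtain ⟨l, h1, h2, h3⟩ := exists_root ht
  rw [← h2]
  refine h.smul hm hg h1 fun x hx => le_trans (le_of_eq ?_) (hs x hx)
  have : l ^ 2 = 1 / (4 * (t + c)) := by rw [eq_div_iff (by positivity), h3]
  rw [this]; field_simp; ring

theorem vd_real (hV : VD) {U K A : Set M} {s t β : ℝ} (hs : s ≤ t) (hc : 0 < s + c)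
    (h : RF g (Icc s t) U) (hK : IsCompact K) (hU : K ⊆ U) (hA : A ⊆ K) (hm : MeasurableSet A)
    (hR : ∀ u ∈ Icc s t, ∀ x ∈ A, -(3 / (2 * (u + c))) + β ≤ Sc (g u) x) :
    wt c t * (vol (g t)).real A ≤ Real.exp (-(β * (t - s))) * (wt c s * (vol (g s)).real A) := by
  have h1 := hV M g U K A s t (fun u => ph c u + β * u) (fun u => -(3 / (2 * (u + c))) + β) hs h hK
    hU hA hm (fun u hu => (hasDerivAt_ph (by linarith [hu.1])).add
      (by simpa using (hasDerivAt_id u).const_mul β)) hR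
  have h2 : vol (g s) A ≠ ⊤ :=
    measure_ne_top_of_subset hA (vol_lt_top (h.met ⟨le_rfl, hs⟩) hK hU).ne
  have h3 := ENNReal.toReal_mono (ENNReal.mul_ne_top ENNReal.ofReal_ne_top h2) h1
  rw [ENNReal.toReal_mul, ENNReal.toReal_ofReal (Real.exp_pos _).le] at h3
  refine (mul_le_mul_of_nonneg_left h3 (wt_pos c t).le).trans (le_of_eq ?_)
  rw [← mul_assoc, ← mul_assoc, wt, wt, ← Real.exp_add, ← Real.exp_add]
  congr 2; ring

/-- an almost minimal flow -/
structure NF (C : Cls) (g : ℝ → Ten E3 M) (b d : M → ℝ) (T c v η : ℝ) : Prop where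
  sf : SF g b d 0 T
  mem : Mem C (preS b d T)
  sc : ∀ U t, Sl b d 0 T U t → ∀ x ∈ U, -(3 / (2 * (t + c))) ≤ Sc (g t) x
  near : ∀ s t, 0 ≤ s → s < t → t ≤ T → ∀ B, MeasurableSet B → B ⊆ Liv b d s t →
    wt c s * (vol (g s)).real B ≤ wt c t * (vol (g t)).real B + η
  tot : wt c T * (vol (g T)).real (preS b d T) ≤ v + η

theorem nf_of (hR : RMIN) (hV : VD) (hL : Low C v) (hc : 0 < c) (h : SF g b d 0 T)
    (hm : ∀ U t, Sl b d 0 T U t → Mem C U)
    (h0 : ∀ x ∈ postS b d 0, -(3 / (2 * (0 + c))) ≤ Sc (g 0) x)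
    (hv : wt c 0 * (vol (g 0)).real (postS b d 0) ≤ v + η)
    (hs : ∀ t ∈ Ioo 0 T, vol (g t) (postS b d t) ≤ vol (g t) (preS b d t) ∧
      ∀ a ≤ 0, (∀ x ∈ preS b d t, a ≤ Sc (g t) x) → ∀ x ∈ postS b d t, a ≤ Sc (g t) x) :
    NF C g b d T c v η := by
  have sc : ∀ U t, Sl b d 0 T U t → ∀ x ∈ U, -(3 / (2 * (t + c))) ≤ Sc (g t) x := by
    have key := h.ind (P := fun t => ∀ x ∈ preS b d t, -(3 / (2 * (t + c))) ≤ Sc (g t) x)
      (Q := fun t => ∀ x ∈ postS b d t, -(3 / (2 * (t + c))) ≤ Sc (g t) x) h0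
      (fun s t h1 h2 h3 h4 h5 => by
        rw [h4.preS_eq ⟨h2, le_rfl⟩]
        rw [h4.postS_eq ⟨le_rfl, h2⟩] at h5
        exact hR M g _ s t c h2.le (by linarith) (h.rf s t h2 h3) (h.isCompact_liv h2 h3 h4)
          (h.hs s t h2 h3) h5)
      fun t ht h1 => (hs t ht).2 _ (by have := ht.1; exact neg_nonpos.2 (by positivity)) h1
    rintro U t (⟨h1, rfl⟩ | ⟨h1, rfl⟩)
    exacts [key.1 t h1, key.2 t h1]
  have fin : ∀ U t, Sl b d 0 T U t → vol (g t) U ≠ ⊤ := fun U t h1 =>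
    (vol_lt_top (h.met h1) (h.sl_cpt h1) Subset.rfl).ne
  have dif : ∀ U t, Sl b d 0 T U t → ∀ B, MeasurableSet B → B ⊆ U →
      (vol (g t)).real (U \ B) = (vol (g t)).real U - (vol (g t)).real B :=
    fun U t h1 B h2 h3 => measureReal_sdiff h3 h2 (fin U t h1)
  have mono : ∀ s t, 0 ≤ s → s < t → t ≤ T → ∀ B, MeasurableSet B → B ⊆ Liv b d s t →
      wt c t * (vol (g t)).real (preS b d t \ B) ≤ wt c s * (vol (g s)).real (postS b d s \ B) := by
    intro s t h1 h2 h3 B h4 h5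
    refine (surg_ind (T₀ := s) (T₁ := t) h.fin
      (P := fun u => wt c u * (vol (g u)).real (preS b d u \ B) ≤
        wt c s * (vol (g s)).real (postS b d s \ B))
      (Q := fun u => wt c u * (vol (g u)).real (postS b d u \ B) ≤
        wt c s * (vol (g s)).real (postS b d s \ B)) le_rfl (fun u w k1 k2 k3 k4 k5 => ?_)
      fun u hu k1 => ?_).1 t ⟨h2, le_rfl⟩
    · refine le_trans ?_ k5
      rw [k4.preS_eq ⟨k2, le_rfl⟩, k4.postS_eq ⟨le_rfl, k2⟩]
      have k6 := k3.trans h3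
      have := vd_real (c := c) (β := 0) hV k2.le (by linarith) (h.rf u w k2 k6)
        (h.isCompact_liv k2 k6 k4) Subset.rfl (sdiff_subset (t := B))
        ((h.isOpen_liv k2 k6).measurableSet.diff h4) fun z hz x hx => by
          obtain ⟨W, k7, k8⟩ := h.exists_sl k2 k6 hx.1 hz
          rw [add_zero]; exact sc W z k7 x (k8 hx.1)
      simpa using this
    · refine le_trans (mul_le_mul_of_nonneg_left ?_ (wt_pos c u).le) k1
      have k2 : u ∈ Ioo 0 T := ⟨h1.trans_lt hu.1, hu.2.trans_le h3⟩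
      have k3 : Sl b d 0 T (preS b d u) u := sl_pre ⟨k2.1, k2.2.le⟩
      have k4 : Sl b d 0 T (postS b d u) u := sl_post ⟨k2.1.le, k2.2⟩
      rw [dif _ _ k3 B h4 (h5.trans (liv_subset_preS ⟨hu.1, hu.2.le⟩)),
        dif _ _ k4 B h4 (h5.trans (liv_subset_postS ⟨hu.1.le, hu.2⟩))]
      exact sub_le_sub_right (ENNReal.toReal_mono (fin _ _ k3) (hs u k2).1) _
  have pre : ∀ t ∈ Ioc 0 T, wt c t * (vol (g t)).real (preS b d t) ≤ v + η := fun t ht => by
    have := mono 0 t le_rfl ht.1 ht.2 ∅ MeasurableSet.empty (empty_subset _)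
    rw [sdiff_empty, sdiff_empty] at this
    exact this.trans hv
  have post : ∀ t ∈ Ico 0 T, wt c t * (vol (g t)).real (postS b d t) ≤ v + η := fun t ht => by
    rcases ht.1.eq_or_lt with rfl | h1
    · exact hv
    · exact (mul_le_mul_of_nonneg_left (ENNReal.toReal_mono (fin _ _ (sl_pre ⟨h1, ht.2.le⟩))
        (hs t ⟨h1, ht.2⟩).1) (wt_pos c t).le).trans (pre t ⟨h1, ht.2.le⟩)
  refine ⟨h, hm _ _ (sl_pre ⟨h.lt, le_rfl⟩), sc, fun s t h1 h2 h3 B h4 h5 => ?_,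
    pre T ⟨h.lt, le_rfl⟩⟩
  have k1 : Sl b d 0 T (preS b d t) t := sl_pre ⟨h1.trans_lt h2, h3⟩
  have k2 : Sl b d 0 T (postS b d s) s := sl_post ⟨h1, h2.trans_le h3⟩
  have k3 := mono s t h1 h2 h3 B h4 h5
  rw [dif _ _ k1 B h4 (h5.trans (liv_subset_preS ⟨h2, le_rfl⟩)),
    dif _ _ k2 B h4 (h5.trans (liv_subset_postS ⟨le_rfl, h2⟩))] at k3
  have k4 := hL.wt (hm _ _ k1) (h.met k1) (by linarith) (sc _ _ k1)
  have k5 := post s ⟨h1, h2.trans_le h3⟩
  linarith

end Vale.Agent.P216C
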