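import Vale.Agent.P216C.Plan
import Vale.Agent.P216FI.Vol2
import Vale.Agent.P216R.Nat
import Vale.Agent.P216B.Mid
import Mathlib.Analysis.Complex.ExponentialBounds

/-!
# P216C: the induction over the cusps
-/

open scoped Manifold ContDiff Topology ENNReal
open Set MeasureTheory

set_option linter.unusedSectionVars false

noncomputable section

namespace Vale.Agent.P216C

open Vale.Agent.P216R Vale.Agent.P216SG Vale.Agent.P216DC
open Vale.Agent.P216FI (slab cusp isOpen_slab)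
open Vale.Agent.P216T (InC Pk)

/-- `v` is a lower bound for the volumes of the metrics with `R ≥ -6` in the class -/
def Low (C : Cls) (v : ℝ) : Prop :=
  ∀ (M : Type) [TopologicalSpace M] [ChartedSpace E3 M] [IsManifold 𝓘(ℝ, E3) ∞ M]
    [MeasurableSpace M] [BorelSpace M] (U : Set M) (g : Ten E3 M), Mem C U → Met g U →
    (∀ x ∈ U, -6 ≤ Sc g x) → v ≤ (vol g).real U

section

variable {M : Type} [TopologicalSpace M] [ChartedSpace E3 M]
  {M' : Type} [TopologicalSpace M'] [ChartedSpace E3 M']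

theorem lindelof_sub {K S : Set M} (hK : IsLindelof K) (hS : S ⊆ K) : IsLindelof S := by
  obtain ⟨t, ht, -, hc⟩ := hK.elim_nhds_subcover (fun a => (chartAt E3 a).source)
    fun a _ => chart_source_mem_nhds E3 a
  have e : S = ⋃ a ∈ t, (chartAt E3 a).symm '' (chartAt E3 a '' ((chartAt E3 a).source ∩ S)) := by
    have e1 : ∀ a : M, (chartAt E3 a).symm '' (chartAt E3 a '' ((chartAt E3 a).source ∩ S)) =
        (chartAt E3 a).source ∩ S := fun a =>
      (chartAt E3 a).toPartialEquiv.symm_image_image_of_subset_source inter_subset_left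
    ext x
    simp only [mem_iUnion, e1]
    refine ⟨fun hx => ?_, fun ⟨_, _, h⟩ => h.2⟩
    obtain ⟨a, ha, hxa⟩ := mem_iUnion₂.1 (hc (hS hx))
    exact ⟨a, ha, hxa, hx⟩
  rw [e]
  refine ht.isLindelof_biUnion fun a _ => IsLindelof.image_of_continuousOn
    (HereditarilyLindelofSpace.isLindelof _) ((chartAt E3 a).continuousOn_symm.mono ?_)
  rintro _ ⟨x, hx, rfl⟩
  exact (chartAt E3 a).map_source hx.1

theorem slab_mono {I J : Set ℝ} (h : I ⊆ J) : slab I ⊆ slab J := fun _ hp => h hp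

theorem preconn_slab (s t : ℝ) : IsPreconnected (slab (Ioo s t)) := by
  have h : Convex ℝ (slab (Ioo s t)) :=
    (convex_Ioo s t).linear_preimage (EuclideanSpace.proj (2 : Fin 3) : E3 →L[ℝ] ℝ).toLinearMap
  exact h.isPreconnected

theorem Cusp.mono {g : Ten E3 M} {U : Set M} {ψ : E3 → M} {a b : ℝ × ℝ} {I J : Set ℝ}
    (h : Cusp g U ψ a b J) (hI : IsOpen I) (hs : I ⊆ J) : Cusp g U ψ a b I :=
  ⟨h.ld.mono (isOpen_slab hI) (slab_mono hs), h.mem.mono_left (slab_mono hs),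
    fun p hp => h.met p (hs hp), fun p hp q hq => h.eq_iff p (hs hp) q (hs hq), h.pos⟩

theorem Cusp.map {g : Ten E3 M} {U V : Set M} {ψ : E3 → M} {a b : ℝ × ℝ} {J : Set ℝ}
    (h : Cusp g U ψ a b J) {g' : Ten E3 M'} {U' : Set M'} {i : M → M'} (hl : LD E3 i V)
    (hi : InjOn i V) (hm : MapsTo ψ (slab J) V) (hU : MapsTo i V U')
    (he : ∀ p ∈ slab J, comap i g' (ψ p) = g (ψ p)) : Cusp g' U' (i ∘ ψ) a b J :=
  ⟨hl.comp h.ld hm, hU.comp hm, fun p hp => by
    rw [← comap_comp g' (hl.md (hm hp)) (h.ld.md hp), comap_congr_right _ (he p hp), h.met p hp],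
    fun p hp q hq => (hi.eq_iff (hm hp) (hm hq)).trans (h.eq_iff p hp q hq), h.pos⟩

variable [IsManifold 𝓘(ℝ, E3) ∞ M] [IsManifold 𝓘(ℝ, E3) ∞ M']

theorem li_of_eq {g : Ten E3 M} {V : Set M} {g' : Ten E3 M'} {U' : Set M'} {i : M → M'}
    (hg : Met g' U') (hl : LD E3 i V) (hU : MapsTo i V U') (he : ∀ x ∈ V, comap i g' x = g x)
    {x : M} (hx : x ∈ V) : LI g g' i x :=
  ⟨⟨U', hg, hU hx⟩, ⟨V, hl, hx⟩, by
    filter_upwards [hl.isOpen.mem_nhds hx] with y hy using (he y hy).symm⟩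

variable [MeasurableSpace M] [BorelSpace M] [MeasurableSpace M'] [BorelSpace M']

theorem vol_of_eq {g : Ten E3 M} {V A : Set M} {g' : Ten E3 M'} {i : M → M'} (hl : LD E3 i V)
    (hi : InjOn i V) (he : ∀ x ∈ A, comap i g' x = g x) (hV : IsLindelof A) (hA : MeasurableSet A)
    (hs : A ⊆ V) : vol g' (i '' A) = vol g A := by
  rw [vol_image g' hl hi hV hs hA Subset.rfl]
  exact vol_congr hV hA Subset.rfl he

theorem meas_of_cpt {U K : Set M} (hU : IsOpen U) (hH : Hs U) (hK : IsCompact K) (hs : K ⊆ U) :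
    MeasurableSet K := by
  have := hU.measurableSet.diff (hH.isOpen_diff hU hK hs).measurableSet
  rwa [sdiff_sdiff_cancel_left hs] at this

theorem Low.smul {C : Cls} {v l : ℝ} (h : Low C v) {U : Set M} {g : Ten E3 M} (hm : Mem C U)
    (hg : Met g U) (hl : 0 < l) (hs : ∀ x ∈ U, -6 * l ^ 2 ≤ Sc g x) :
    v ≤ l ^ 3 * (vol g).real U := by
  have h2 : 0 < l ^ 2 := by positivity
  have := h M U (l ^ 2 • g) hm (hg.smul h2) fun x hx => by
    rw [Sc_smul _ _ h2.ne', ← div_eq_inv_mul, le_div_iff₀ h2]; exact hs x hx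
  rwa [Measure.real, vol_smul hm.cpt.isLindelof hm.isOpen.measurableSet Subset.rfl hl,
    ENNReal.toReal_mul, ENNReal.toReal_ofReal (by positivity), finrank_euclideanSpace_fin] at this

end

/-- a compact piece with `R ≥ -6` bounded by exact cusp collars -/
structure Piece (G : Type) [Group G] {M : Type} [TopologicalSpace M] [ChartedSpace E3 M]
    [MeasurableSpace M] (g : Ten E3 M) (U C : Set M) {ι : Type} (s : Finset ι) (ψ : ι → E3 → M)
    (a b : ι → ℝ × ℝ) (β l v B : ℝ) : Prop where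
  mem : Mem (Cl G) U
  met : Met g U
  sc : ∀ x ∈ U, -6 * l ^ 2 ≤ Sc g x
  cusp : ∀ j ∈ s, Cusp g U (ψ j) (a j) (b j) (Ioo (-3) β)
  disj : ∀ i ∈ s, ∀ j ∈ s, i ≠ j →
    Disjoint (ψ i '' slab (Ioo (-3) β)) (ψ j '' slab (Ioo (-3) β))
  cpt : IsCompact C
  sub : C ⊆ U
  ne : C.Nonempty
  sc' : ∀ x ∈ C, -6 ≤ Sc g x
  zero : ∀ j ∈ s, ψ j '' slab {0} ⊆ C
  opn : IsOpen (C ∪ ⋃ j ∈ s, ψ j '' slab (Ioo 0 β))
  v1 : (vol g).real C + ∑ j ∈ s, ar (a j) (b j) / 2 ≤ v
  v2 : (vol g).real U + ∑ j ∈ s, ar (a j) (b j) * Real.exp (-2 * β) / 2 ≤ B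
  v3 : ∀ j ∈ s, l ^ 3 * (B - 100 * ar (a j) (b j)) < v

theorem eq_of_clopen {M : Type} [TopologicalSpace M] {U C : Set M} (hU : IsOpen U) (hH : Hs U)
    (hc : IsPreconnected U) (h1 : IsCompact C) (h2 : IsOpen C) (h3 : C ⊆ U) (h4 : C.Nonempty) :
    C = U := by
  refine h3.antisymm (hc.subset_left_of_subset_union h2 (hH.isOpen_diff hU h1 h3)
    disjoint_sdiff_right (by rw [union_sdiff_cancel h3]) ?_)
  rwa [inter_eq_right.2 h3]

theorem exp_six : (225 : ℝ) ≤ Real.exp (-2 * (-3)) := by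
  have h : Real.exp (-2 * (-3)) = Real.exp 1 ^ 6 := by rw [← Real.exp_nat_mul]; norm_num
  rw [h]
  calc (225 : ℝ) ≤ 2.7 ^ 6 := by norm_num
    _ ≤ _ := pow_le_pow_left₀ (by norm_num) (by linarith [Real.exp_one_gt_d9]) 6

theorem piece_false (hF : FILL) (hV : CVOL) {G : Type} [Group G] (hG : Pk G) {β l v B : ℝ}
    (hL : Low (Cl G) v) (hβ : 1 ≤ β) (hl : 1 ≤ l) {ι : Type} (a b : ι → ℝ × ℝ) (s : Finset ι) :
    ∀ (M : Type) [TopologicalSpace M] [ChartedSpace E3 M] [IsManifold 𝓘(ℝ, E3) ∞ M]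
      [MeasurableSpace M] [BorelSpace M] (g : Ten E3 M) (U C : Set M) (ψ : ι → E3 → M),
      Piece G g U C s ψ a b β l v B → (s = ∅ → (vol g).real C < v) → False := by
  classical
  induction s using Finset.strongInduction with
  | H s ih =>
  intro M _ _ _ _ _ g U C ψ P h0
  rcases s.eq_empty_or_nonempty with rfl | ⟨k, hk⟩
  · have ho : IsOpen C := by simpa using P.opn
    have e := eq_of_clopen P.mem.isOpen P.mem.hs P.mem.conn P.cpt ho P.sub P.ne
    subst e
    exact absurd (hL M C g P.mem P.met P.sc') (not_le.2 (h0 rfl))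
  obtain ⟨M', _, _, _, _, _, U', g', V, W, i, T, m', g1, oW, dVW, eU, ld, inj, iso, eU', dT, nT, sT,
    hc⟩ := hF G hG M U g (ψ k) (a k) (b k) β P.mem P.met hβ (P.cusp k hk)
  have VU : V ⊆ U := eU ▸ subset_union_left.trans subset_union_left
  have WU : W ⊆ U := eU ▸ subset_union_right.trans subset_union_left
  have iV : MapsTo i V U' := fun x hx => eU' ▸ Or.inl (mem_image_of_mem i hx)
  have TU : T ⊆ U' := eU' ▸ subset_union_right
  have fU : vol g U ≠ ⊤ := (vol_lt_top P.met P.mem.cpt Subset.rfl).ne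
  have fU' : vol g' U' ≠ ⊤ := (vol_lt_top g1 m'.cpt Subset.rfl).ne
  have li : ∀ x ∈ V, LI g g' i x := fun x hx => li_of_eq g1 ld iV iso hx
  have vi : ∀ A, MeasurableSet A → A ⊆ V → (vol g').real (i '' A) = (vol g).real A :=
    fun A h1 h2 => by
      rw [Measure.real, Measure.real, vol_of_eq ld inj (fun x hx => iso x (h2 hx))
        (lindelof_sub P.mem.cpt.isLindelof (h2.trans VU)) h1 h2]
  have l1 : 1 ≤ l ^ 2 := one_le_pow₀ hl
  have sc : ∀ y ∈ U', -6 * l ^ 2 ≤ Sc g' y := by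
    intro y hy
    rcases eU' ▸ hy with ⟨x, hx, rfl⟩ | hy
    · rw [← (li x hx).Sc]; exact P.sc x (VU hx)
    · linarith [sT y hy]
  have w1 : (vol g').real U' ≤ (vol g).real V + (vol g').real T := by
    rw [← vi V ld.isOpen.measurableSet Subset.rfl]
    nth_rewrite 1 [eU']
    exact measureReal_union_le _ _
  have w2 : (vol g).real V + (vol g).real W ≤ (vol g).real U := by
    rw [← measureReal_union dVW oW.measurableSet (measure_ne_top_of_subset VU fU)
      (measure_ne_top_of_subset WU fU)]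
    exact measureReal_mono (union_subset VU WU) fU
  have w3 : ∀ s' t', s' ≤ t' → Ioo s' t' ⊆ Ioo (-3) β → MapsTo (ψ k) (slab (Ioo s' t')) W →
      ar (a k) (b k) * (Real.exp (-2 * s') - Real.exp (-2 * t')) / 2 ≤ (vol g).real W := by
    intro s' t' h1 h2 h3
    have h4 := hV M U g (ψ k) (a k) (b k) s' t' h1 ((P.cusp k hk).mono isOpen_Ioo h2)
    refine (ENNReal.ofReal_le_iff_le_toReal (measure_ne_top_of_subset WU fU)).1 ?_
    rw [← h4]
    exact measure_mono h3.image_subset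
  have ap : ∀ j ∈ s, 0 < ar (a j) (b j) := fun j hj => (P.cusp j hj).pos
  have a0 := ap k hk
  rcases hc with ⟨hW, vT⟩ | ⟨hW, vT⟩
  swap
  · have h1 := w3 (-3) 0 (by norm_num) (Ioo_subset_Ioo le_rfl (by linarith)) hW
    have h2 : (vol g').real T ≤ 12 * ar (a k) (b k) :=
      ENNReal.toReal_le_of_le_ofReal (by positivity) vT
    have h3 := hL.smul m' g1 (by linarith) sc
    have h4 : 0 ≤ ∑ j ∈ s, ar (a j) (b j) * Real.exp (-2 * β) / 2 :=
      Finset.sum_nonneg fun j hj => by have := ap j hj; positivity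
    have h5 : ar (a k) (b k) * 225 ≤ ar (a k) (b k) * Real.exp (-2 * (-3)) :=
      mul_le_mul_of_nonneg_left exp_six a0.le
    rw [mul_zero, Real.exp_zero] at h1
    rw [mul_sub] at h1
    generalize ar (a k) (b k) * Real.exp (-2 * (-3)) = z at h1 h5
    have h6 : (vol g').real U' ≤ B - 100 * ar (a k) (b k) := by linarith [P.v2]
    have h7 := mul_le_mul_of_nonneg_left h6 (show 0 ≤ l ^ 3 by positivity)
    linarith [P.v3 k hk]
  have h1 := w3 0 β (by linarith) (Ioo_subset_Ioo (by norm_num) le_rfl) hW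
  rw [mul_zero, Real.exp_zero] at h1
  have h2 : (vol g').real T < ar (a k) (b k) / 2 := ENNReal.toReal_lt_of_lt_ofReal vT
  set s' := (s.erase k).filter fun j => ψ j '' slab (Ioo (-3) β) ⊆ V with hs'
  have ss : s' ⊆ s.erase k := Finset.filter_subset _ _
  have ms : ∀ j ∈ s', j ∈ s ∧ j ≠ k ∧ MapsTo (ψ j) (slab (Ioo (-3) β)) V := fun j hj => by
    obtain ⟨h3, h4⟩ := Finset.mem_filter.1 hj
    exact ⟨Finset.mem_of_mem_erase h3, Finset.ne_of_mem_erase h3, mapsTo_iff_image_subset.2 h4⟩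
  have s0 : slab (Ioo 0 β) ⊆ slab (Ioo (-3) β) := slab_mono (Ioo_subset_Ioo (by norm_num) le_rfl)
  have s1 : slab {0} ⊆ slab (Ioo (-3) β) :=
    slab_mono (singleton_subset_iff.2 ⟨by norm_num, by linarith⟩)
  have side : ∀ j ∈ s, ∀ p ∈ slab (Ioo 0 β), ψ j p ∈ V → j ∈ s' := by
    intro j hj p hp hpV
    have jk : j ≠ k := by
      rintro rfl
      exact disjoint_left.1 dVW hpV (hW hp)
    refine Finset.mem_filter.2 ⟨Finset.mem_erase.2 ⟨jk, hj⟩, ?_⟩
    refine ((preconn_slab _ _).image _ (P.cusp j hj).ld.smooth.continuousOn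
      ).subset_left_of_subset_union ld.isOpen oW dVW (fun y hy => ?_)
      ⟨_, mem_image_of_mem _ (s0 hp), hpV⟩
    have hyU : y ∈ U := (P.cusp j hj).mem.image_subset hy
    rw [eU] at hyU
    exact hyU.resolve_right fun h => disjoint_left.1 (P.disj j hj k hk jk) hy (image_mono s1 h)
  have sum1 : ∀ f : ι → ℝ, (∀ j ∈ s, 0 ≤ f j) → ∑ j ∈ s', f j + f k ≤ ∑ j ∈ s, f j := by
    intro f hf
    rw [← Finset.sum_erase_add s f hk]
    exact add_le_add_left (Finset.sum_le_sum_of_subset_of_nonneg ss fun j hj _ =>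
      hf j (Finset.mem_of_mem_erase hj)) _
  have mC : MeasurableSet C := meas_of_cpt P.mem.isOpen P.mem.hs P.cpt P.sub
  have w4 : (vol g').real (i '' (C ∩ V) ∪ T) < (vol g).real C + ar (a k) (b k) / 2 := by
    have h3 := measureReal_union_le (μ := vol g') (i '' (C ∩ V)) T
    rw [vi _ (mC.inter ld.isOpen.measurableSet) inter_subset_right] at h3
    have h4 : (vol g).real (C ∩ V) ≤ (vol g).real C :=
      measureReal_mono inter_subset_left (measure_ne_top_of_subset P.sub fU)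
    linarith
  have w5 := sum1 (fun j => ar (a j) (b j) / 2) fun j hj => by have := ap j hj; positivity
  have w6 := sum1 (fun j => ar (a j) (b j) * Real.exp (-2 * β) / 2) fun j hj => by
    have := ap j hj; positivity
  have w7 : 0 ≤ ∑ j ∈ s', ar (a j) (b j) / 2 :=
    Finset.sum_nonneg fun j hj => by have := ap j (ms j hj).1; positivity
  have key : ∀ A : Set M, U' \ i '' (V \ A) = i '' (A ∩ V) ∪ T := by
    intro A
    ext y
    constructor
    · rintro ⟨hy, hn⟩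
      rcases eU' ▸ hy with ⟨x, hx, rfl⟩ | hy
      · exact Or.inl ⟨x, ⟨by_contra fun h => hn ⟨x, ⟨hx, h⟩, rfl⟩, hx⟩, rfl⟩
      · exact Or.inr hy
    · rintro (⟨x, hx, rfl⟩ | hy)
      · refine ⟨iV hx.2, fun ⟨z, hz, e⟩ => hz.2 ?_⟩
        rw [inj hz.1 hx.2 e]; exact hx.1
      · exact ⟨TU hy, fun h => disjoint_left.1 dT (image_mono sdiff_subset h) hy⟩
  refine ih s' (ss.trans_ssubset (Finset.erase_ssubset hk)) M' g' U' (i '' (C ∩ V) ∪ T)
    (fun j => i ∘ ψ j) ⟨m', g1, sc, fun j hj => ?_, fun j hj j' hj' hn => ?_, ?_, ?_,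
      nT.mono subset_union_right, ?_, fun j hj => ?_, ?_, by linarith [P.v1], by linarith [P.v2],
      fun j hj => P.v3 j (ms j hj).1⟩ fun _ => by linarith [P.v1]
  · exact (P.cusp j (ms j hj).1).map ld inj (ms j hj).2.2 iV fun p hp => iso _ ((ms j hj).2.2 hp)
  · rw [image_comp, image_comp]
    exact (P.disj j (ms j hj).1 j' (ms j' hj').1 hn).image inj (ms j hj).2.2.image_subset
      (ms j' hj').2.2.image_subset
  · rw [← key]
    refine m'.cpt.diff (ld.isOpen_image ?_ sdiff_subset)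
    have e : V \ C = V ∩ (U \ C) := by
      ext x; exact ⟨fun h => ⟨h.1, VU h.1, h.2⟩, fun h => ⟨h.1, h.2.2⟩⟩
    rw [e]
    exact ld.isOpen.inter (P.mem.hs.isOpen_diff P.mem.isOpen P.cpt P.sub)
  · rw [← key]; exact sdiff_subset
  · rintro y (⟨x, hx, rfl⟩ | hy)
    · rw [← (li x hx.2).Sc]; exact P.sc' x hx.1
    · exact sT y hy
  · rintro _ ⟨p, hp, rfl⟩
    exact Or.inl ⟨_, ⟨P.zero j (ms j hj).1 (mem_image_of_mem _ hp), (ms j hj).2.2 (s1 hp)⟩, rfl⟩
  · have e : (i '' (C ∩ V) ∪ T) ∪ ⋃ j ∈ s', (i ∘ ψ j) '' slab (Ioo 0 β) =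
        U' \ i '' (V \ (C ∪ ⋃ j ∈ s, ψ j '' slab (Ioo 0 β))) := by
      rw [key, union_inter_distrib_right, image_union, union_right_comm]
      congr 2
      ext y
      simp only [mem_iUnion, mem_image, mem_inter_iff, Function.comp]
      constructor
      · rintro ⟨j, hj, p, hp, rfl⟩
        exact ⟨_, ⟨⟨j, (ms j hj).1, p, hp, rfl⟩, (ms j hj).2.2 (s0 hp)⟩, rfl⟩
      · rintro ⟨_, ⟨⟨j, hj, p, hp, rfl⟩, h3⟩, rfl⟩
        exact ⟨j, side j hj p hp h3, p, hp, rfl⟩
    rw [e]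
    have e2 : V \ (C ∪ ⋃ j ∈ s, ψ j '' slab (Ioo 0 β)) =
        (U \ W) \ (C ∪ ⋃ j ∈ s, ψ j '' slab (Ioo 0 β)) := by
      ext x
      refine ⟨fun h => ⟨⟨VU h.1, disjoint_left.1 dVW h.1⟩, h.2⟩, fun h => ⟨?_, h.2⟩⟩
      have h3 := h.1.1
      rw [eU] at h3
      rcases h3 with (h3 | h3) | h3
      exacts [h3, absurd h3 h.1.2, absurd (Or.inl (P.zero k hk h3)) h.2]
    refine m'.hs.isOpen_diff m'.isOpen (IsCompact.image_of_continuousOn ?_
      (ld.smooth.continuousOn.mono sdiff_subset)) (iV.mono_left sdiff_subset).image_subset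
    rw [e2]
    exact (P.mem.cpt.diff oW).diff P.opn

end Vale.Agent.P216C
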