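import Vale.Agent.P216C.Near
import Vale.Agent.P216FI.CvSc
import Vale.Agent.P216FL.Inv
import Mathlib.Geometry.Manifold.PartitionOfUnity

/-!
# P216C: transplanting the limit metric
-/

open scoped Manifold ContDiff Topology ENNReal
open Set MeasureTheory
open Filter hiding comap comap_id

set_option linter.unusedSectionVars false
set_option maxSynthPendingDepth 3

noncomputable section

namespace Vale.Agent.P216C

open Vale.Agent.P216R Vale.Agent.P216SG Vale.Agent.P216DC Vale.Agent.P216U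

variable {X : Type} [TopologicalSpace X] [ChartedSpace E3 X] [IsManifold 𝓘(ℝ, E3) ∞ X]

theorem exists_push [Nonempty X] {N : Type} [TopologicalSpace N] [ChartedSpace E3 N]
    [IsManifold 𝓘(ℝ, E3) ∞ N] {f : X → N} {V K : Set X} {U : Set N} {g : Ten E3 N} {k : Ten E3 X}
    (hf : LD E3 f V) (hi : InjOn f V) (hm : MapsTo f V U) (hK : IsCompact K) (hs : K ⊆ V)
    (hg : Met g U) (hH : Hs U) (hk : Met k V) (he : ∀ p ∈ V, p ∉ K → k p = comap f g p) :
    ∃ g', Met g' U ∧ (∀ p ∈ V, comap f g' p = k p) ∧ ∀ y, y ∉ f '' K → g' y = g y := by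
  classical
  have hσ := hf.inverse hi
  set σ := Function.invFunOn f V
  have e1 : ∀ p ∈ V, σ (f p) = p := fun p hp => hi.leftInvOn_invFunOn hp
  let g' : Ten E3 N := fun y => if y ∈ f '' V then comap σ k y else g y
  have h1 : ∀ p ∈ V, comap f g' p = k p := by
    intro p hp
    rw [comap_congr_right f (h := comap σ k) (if_pos (mem_image_of_mem f hp)),
      comap_comp k (hσ.md (mem_image_of_mem f hp)) (hf.md hp), comap_congr (f' := id) k, comap_id]
    filter_upwards [hf.isOpen.mem_nhds hp] with q hq using e1 q hq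
  have h2 : ∀ y, y ∉ f '' K → g' y = g y := by
    intro y hy
    by_cases h : y ∈ f '' V
    swap
    · exact if_neg h
    obtain ⟨p, hp, rfl⟩ := h
    ext v w
    obtain ⟨v, rfl⟩ := hf.surj hp v
    obtain ⟨w, rfl⟩ := hf.surj hp w
    rw [← comap_apply, ← comap_apply, h1 p hp, he p hp fun h => hy (mem_image_of_mem f h)]
  have c1 : IsCompact (f '' K) := hK.image_of_continuousOn (hf.smooth.continuousOn.mono hs)
  have c2 : f '' K ⊆ U := (hm.mono_left hs).image_subset
  have h3 := P216FL.met_union (met_of_comap hf (hk.congr h1))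
    ((hg.mono (hH.isOpen_diff hg.isOpen c1 c2) sdiff_subset).congr fun y hy => h2 y hy.2)
  refine ⟨g', ?_, h1, h2⟩
  convert h3 using 1
  refine Subset.antisymm (fun y hy => ?_) (union_subset hm.image_subset sdiff_subset)
  by_cases h : y ∈ f '' K
  exacts [Or.inl (image_mono hs h), Or.inr ⟨hy, h⟩]

/-- interpolation of two tensors -/
def mix (χ : X → ℝ) (h k : Ten E3 X) : Ten E3 X := fun p => χ p • h p + (1 - χ p) • k p

theorem co_mix (χ : X → ℝ) (h k : Ten E3 X) (a : X) :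
    co (mix χ h k) a = fun u => rd E3 χ a u • co h a u + (1 - rd E3 χ a u) • co k a u := by
  funext u; ext v w; simp [co, comap_apply, mix, rd]

theorem contDiffOn_rd {χ : X → ℝ} (hχ : ContMDiff 𝓘(ℝ, E3) 𝓘(ℝ, ℝ) ∞ χ) (a : X) (W : Set X) :
    ContDiffOn ℝ ∞ (rd E3 χ a) (dom E3 a W) := fun _ hu =>
  (contMDiffAt_iff_contDiffAt.1 ((hχ _).comp _ (sm_symm hu.1))).contDiffWithinAt

theorem met_mix {χ : X → ℝ} (hχ : ContMDiff 𝓘(ℝ, E3) 𝓘(ℝ, ℝ) ∞ χ) (h01 : ∀ p, χ p ∈ Icc 0 1)
    {h k : Ten E3 X} {V : Set X} (hh : Met h V) (hk : Met k V) : Met (mix χ h k) V where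
  isOpen := hh.isOpen
  symm x hx v w := by simp [mix, hh.symm x hx v w, hk.symm x hx v w]
  pos x hx v hv := by
    have h1 := hh.pos x hx v hv
    have h2 := hk.pos x hx v hv
    have h3 := h01 x
    simp only [mix, add_apply, smul_apply, smul_eq_mul]
    rcases h3.1.eq_or_lt with h4 | h4
    · rw [← h4]; simpa using h2
    · nlinarith [mul_pos h4 h1, mul_nonneg (sub_nonneg.2 h3.2) h2.le]
  smooth a := by
    rw [co_mix]
    exact ((contDiffOn_rd hχ a V).smul (hh.smooth a)).add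
      ((contDiffOn_const.sub (contDiffOn_rd hχ a V)).smul (hk.smooth a))

variable {ι : Type} {M : ι → Type} [∀ n, TopologicalSpace (M n)] [∀ n, ChartedSpace E3 (M n)]
  [∀ n, IsManifold 𝓘(ℝ, E3) ∞ (M n)] [∀ n, MeasurableSpace (M n)] [∀ n, BorelSpace (M n)]

theorem transplant [T2Space X] [SecondCountableTopology X] [Nonempty X] {l : Ultrafilter ι}
    {U : ∀ n, Set (M n)} {g : ∀ n, Ten E3 (M n)} {F : ∀ n, X → M n} {h : Ten E3 X} {K : Set X}
    (hc : Conv l U g F h univ) (hg : ∀ n, Met (g n) (U n)) (hH : ∀ n, Hs (U n))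
    (hU : ∀ n, IsCompact (U n)) (hK : IsCompact K) (h1 : ∀ p, -6 ≤ Sc h p)
    (h2 : ∀ n, ∀ y ∈ U n, -6 ≤ Sc (g n) y) {s : ℝ} (hs : 1 < s) :
    ∃ V, K ⊆ V ∧ ∀ᶠ n in (l : Filter ι), LD E3 (F n) V ∧ InjOn (F n) V ∧ MapsTo (F n) V (U n) ∧
      ∃ g', Met g' (U n) ∧ (∀ p ∈ V, comap (F n) g' p = h p) ∧
        (∀ y ∈ U n, -6 * s ^ 2 ≤ Sc g' y) ∧
        (vol g').real (U n) ≤ s ^ 3 * (vol (g n)).real (U n) := by
  have : LocallyCompactSpace X := ChartedSpace.locallyCompactSpace E3 X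
  obtain ⟨V₁, K₁, o1, c1, s1, s2, -⟩ := exists_between_compact E3 hK isOpen_univ (subset_univ _)
  obtain ⟨V₂, K₂, o2, c2, s3, s4, -⟩ := exists_between_compact E3 c1 isOpen_univ (subset_univ _)
  obtain ⟨V₃, s5, -, hE⟩ := hc.emb K₂ c2 (subset_univ _)
  obtain ⟨χ, χ0, χ1, χ2⟩ := exists_contMDiffMap_zero_one_of_isClosed (n := ⊤) 𝓘(ℝ, E3)
    o2.isClosed_compl c1.isClosed (disjoint_compl_left_iff_subset.2 s3)
  have s13 : V₁ ⊆ V₃ := s2.trans (s3.trans (s4.trans s5))
  have q1 : 1 < s ^ 2 := one_lt_pow₀ hs two_ne_zero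
  let k : ι → Ten E3 X := fun n => mix χ h (comap (F n) (g n))
  have cv : TCv l k h univ := fun a => by
    simp only [k, co_mix]
    exact P216FI.cv_interp (hc.met.isMetricOn a) (hc.cv a) (contDiffOn_rd χ.contMDiff a _)
  have mk : ∀ᶠ n in (l : Filter ι), Met (k n) V₃ := hE.mono fun n hn =>
    met_mix χ.contMDiff χ2 (hc.met.mono hn.1.isOpen (subset_univ _)) ((hg n).comap hn.1 hn.2.2)
  have o3 : IsOpen V₃ := let ⟨_, hn⟩ := mk.exists; hn.isOpen
  have sc : ∀ᶠ n in (l : Filter ι), ∀ p ∈ K₂, -6 * s ^ 2 < Sc (k n) p :=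
    ev_compact (S := univ) (P := fun q => -6 * s ^ 2 < Sc (k q.1) q.2) c2 (subset_univ _)
      fun p hp => by
        rw [nhdsWithin_univ]
        refine (tcv_sc cv hc.met (mem_univ p) ?_).eventually (lt_mem_nhds (by linarith [h1 p]))
        filter_upwards [tendsto_fst.eventually mk, tendsto_snd.eventually (o3.mem_nhds (s5 hp))]
          with q a b using ⟨V₃, a, b⟩
  refine ⟨V₁, s1, ?_⟩
  filter_upwards [hE, mk, sc, hc.cv.cmp hc.met c2 (subset_univ _) q1] with n ⟨a, b, c⟩ d e f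
  obtain ⟨g', m1, m2, m3⟩ := exists_push a b c c2 s5 (hg n) (hH n) d fun p _ hp => by
    have : χ p = 0 := χ0 fun h => hp (s4 h)
    simp [k, mix, this]
  refine ⟨a.mono o1 s13, b.mono s13, c.mono_left s13, g', m1, fun p hp => ?_, fun y hy => ?_, ?_⟩
  · have : χ p = 1 := χ1 (s2 hp)
    rw [m2 p (s13 hp)]; simp [k, mix, this]
  · by_cases hy' : y ∈ F n '' K₂
    · obtain ⟨p, hp, rfl⟩ := hy'
      rw [← (li_of_eq m1 a c m2 (s5 hp)).Sc]
      exact (e p hp).le
    · have : g' =ᶠ[𝓝 y] g n := by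
        filter_upwards [(hH n).compl_mem (c2.image_of_continuousOn (a.smooth.continuousOn.mono s5))
          (c.mono_left s5).image_subset hy hy'] with z hz using m3 z hz
      rw [Sc_congr this]
      linarith [h2 n y hy]
  · have v1 := vol_le_mul (hU n).isLindelof m1.isOpen.measurableSet Subset.rfl (c := s)
      (by linarith) (fun y hy => m1.pd hy) (fun y hy => (hg n).pd hy) fun y hy v => by
        have p0 := (hg n).nonneg hy v
        by_cases hy' : y ∈ F n '' K₂
        · obtain ⟨p, hp, rfl⟩ := hy'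
          obtain ⟨v, rfl⟩ := a.surj (s5 hp) v
          rw [← comap_apply] at p0 ⊢
          rw [← comap_apply, m2 p (s5 hp)]
          have p1 := (f p hp v).2
          have p2 := χ2 p
          simp only [k, mix, add_apply, smul_apply,
            smul_eq_mul]
          nlinarith [mul_le_mul_of_nonneg_left p1 p2.1,
            mul_nonneg (mul_nonneg (sub_nonneg.2 p2.2) (sub_nonneg.2 q1.le)) p0]
        · rw [m3 y hy']; nlinarith
    have v2 := ENNReal.toReal_mono (ENNReal.mul_ne_top ENNReal.ofReal_ne_top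
      (vol_lt_top (hg n) (hU n) Subset.rfl).ne) v1
    rwa [ENNReal.toReal_mul, ENNReal.toReal_ofReal (by positivity),
      finrank_euclideanSpace_fin] at v2

end Vale.Agent.P216C
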