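import Vale.Agent.P216C.Flow
import Vale.Agent.P216C.Trans
import Vale.Agent.P216FL.OriC
import Vale.Agent.P216BF.Curv
import Vale.Agent.P216J.Leaf

/-!
# P216C: the assembly
-/

open scoped Manifold ContDiff Topology ENNReal
open Set MeasureTheory
open Filter hiding comap comap_id

set_option linter.unusedSectionVars false

noncomputable section

namespace Vale.Agent.P216C

open Vale.Agent.P216R Vale.Agent.P216SG Vale.Agent.P216DC Vale.Agent.P216U
open Vale.Agent.P216FI (slab cusp isOpen_slab)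
open Vale.Agent.P216T (InC Pk)

variable {ι : Type} {M : ι → Type} [∀ n, TopologicalSpace (M n)] [∀ n, ChartedSpace E3 (M n)]
  [∀ n, IsManifold 𝓘(ℝ, E3) ∞ (M n)] [∀ n, MeasurableSpace (M n)] [∀ n, BorelSpace (M n)]

theorem lim_vol {C : Cls} {v : ℝ} {l : Ultrafilter ι} {U : ∀ n, Set (M n)}
    {g : ∀ n, Ten E3 (M n)} {x : ∀ n, M n} (H : Mini C v l U g) (L : Lim l U g x ⊤) :
    vol L.h univ ≤ ENNReal.ofReal v := by
  have h1 : ∀ K, IsCompact K → vol L.h K ≤ ENNReal.ofReal v := by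
    intro K hK
    refine (ENNReal.le_ofReal_iff_toReal_le (vol_lt_top L.conv.met hK (subset_univ _)).ne ?_).2 ?_
    · refine le_of_forall_pos_le_add fun ε hε => ?_
      obtain ⟨n, hn⟩ := (H.vol ε hε).exists
      exact measureReal_nonneg.trans hn
    refine le_of_forall_pos_le_add fun ε hε => le_of_tendsto (conv_vol L.conv
      (Eventually.of_forall H.met) hK (subset_univ _) hK.isClosed.measurableSet Subset.rfl) ?_
    obtain ⟨V, h2, -, h3⟩ := L.conv.emb K hK (subset_univ _)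
    filter_upwards [h3, H.vol ε hε] with n h4 h5
    exact (measureReal_mono (h4.2.2.mono_left h2).image_subset
      (vol_lt_top (H.met n) (H.mem n).cpt Subset.rfl).ne).trans h5
  have h2 : (univ : Set L.X) = ⋃ k : ℕ, cbl L.h univ L.o k := by
    refine (eq_univ_of_forall fun p => ?_).symm
    obtain ⟨k, hk⟩ := ENNReal.exists_nat_gt (L.lt p).ne
    exact mem_iUnion.2 ⟨k, by simpa [cbl] using hk.le⟩
  have h3 : Monotone fun k : ℕ => cbl L.h univ L.o k := fun i j h => cbl_mono (by exact_mod_cast h)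
  calc vol L.h univ = vol L.h (⋃ k : ℕ, cbl L.h univ L.o k) := congrArg _ h2
    _ ≤ _ := by
      rw [h3.measure_iUnion]
      exact iSup_le fun k => h1 _ (L.cpt _ ENNReal.ofReal_lt_top)

theorem exists_params {m : ℕ} {A : Fin m → ℝ} (hA : ∀ j, 0 < A j) (v : ℝ) :
    ∃ β ≥ 1, ∃ s > 1, ∀ k, s ^ 3 * (s ^ 3 * (v + (s - 1)) + ∑ j, A j * Real.exp (-2 * β) / 2 -
      100 * A k) < v := by
  have h0 : Tendsto (fun β : ℝ => Real.exp (-2 * β)) atTop (𝓝 0) :=
    Real.tendsto_exp_atBot.comp (tendsto_id.const_mul_atTop_of_neg (by norm_num))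
  have h1 : Tendsto (fun β : ℝ => ∑ j, A j * Real.exp (-2 * β) / 2) atTop (𝓝 0) := by
    simpa using tendsto_finsetSum Finset.univ fun j _ => (h0.const_mul (A j)).div_const 2
  obtain ⟨β, h2, h3⟩ := ((eventually_ge_atTop 1).and
    (eventually_all.2 fun k => h1.eventually (gt_mem_nhds (hA k)))).exists
  refine ⟨β, h2, ?_⟩
  generalize ∑ j, A j * Real.exp (-2 * β) / 2 = z at h3
  have h4 : ∀ k, ∀ᶠ s : ℝ in 𝓝[>] 1, s ^ 3 * (s ^ 3 * (v + (s - 1)) + z - 100 * A k) < v := by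
    intro k
    have c : Continuous fun s : ℝ => s ^ 3 * (s ^ 3 * (v + (s - 1)) + z - 100 * A k) := by fun_prop
    refine ((c.tendsto 1).eventually (gt_mem_nhds ?_)).filter_mono nhdsWithin_le_nhds
    linarith [h3 k, hA k]
  obtain ⟨s, h5, h6⟩ := ((eventually_all.2 h4).and self_mem_nhdsWithin).exists
  exact ⟨s, h6, h5⟩

theorem mini_false (hH : HYP) (hL : HLIN) (hF : FILL) (hV : CVOL) {G : Type} [Group G] (hG : Pk G)
    (hn : ¬ Lin G) {v : ℝ} {l : Ultrafilter ι} {U : ∀ n, Set (M n)} {g : ∀ n, Ten E3 (M n)}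
    {x : ∀ n, M n} (H : Mini (Cl G) v l U g) (L : Lim l U g x ⊤) (hc : Const L.h univ (-1)) :
    False := by
  have met := L.conv.met
  have v0 := lim_vol H L
  have vf : vol L.h univ ≠ ⊤ := ne_top_of_le_ne_top ENNReal.ofReal_ne_top v0
  obtain ⟨m, ψ, a, b, c1, c2, c3, c4⟩ := hH L.X L.h met
    (met.cpl_of isPreconnected_univ (mem_univ L.o) fun r => L.cpt _ ENNReal.ofReal_lt_top) hc vf
    fun K _ => ⟨univ, isOpen_univ, subset_univ _, ori_of_emb L.conv.emb
      (Eventually.of_forall fun n => ⟨(H.mem n).isOpen, (H.mem n).cls.2⟩)⟩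
  have sc : ∀ p, -6 ≤ Sc L.h p := fun p => by
    have := P216BF.sc_ge3 P216BF.finrank_E3 met (mem_univ p) (hc p (mem_univ p)).1
    linarith
  have hgt : ∀ i j (p q : E3), -3 < p 2 → -3 < q 2 → ψ i p = ψ j q → i = j ∧ p 2 = q 2 := by
    intro i j p q hp hq e
    have h1 : i = j := by_contra fun h =>
      disjoint_left.1 (c2 i j h) (mem_image_of_mem _ hp) ⟨q, hq, e.symm⟩
    subst h1
    obtain ⟨_, _, h2⟩ := ((c1 i).eq_iff p hp q hq).1 e
    exact ⟨rfl, by rw [h2]; rfl⟩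
  have out : ∀ j (p : E3) (J : Set ℝ), J ⊆ Ioi (-3) → -3 < p 2 → p 2 ∉ J →
      ψ j p ∈ (⋃ i, ψ i '' slab J)ᶜ := by
    intro j p J hJ hp hn h
    obtain ⟨i, q, hq, e⟩ := mem_iUnion.1 h
    exact hn ((hgt i j q p (hJ hq) hp e).2 ▸ hq)
  obtain ⟨β, hβ, s, hs, hp⟩ := exists_params (fun j => (c1 j).pos) v
  obtain ⟨V, sV, hE⟩ := transplant L.conv H.met (fun n => (H.mem n).hs) (fun n => (H.mem n).cpt)
    (c3 β (by linarith)) sc H.sc hs
  obtain ⟨n, ⟨ld, inj, mt, g', m1, m2, m3, m4⟩, m5⟩ := (hE.and (H.vol _ (sub_pos.2 hs))).exists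
  set K := (⋃ j, ψ j '' slab (Ioi 0))ᶜ with hK
  have cK : IsCompact K := c3 0 le_rfl
  have KV : K ⊆ V := (compl_subset_compl.2 (iUnion_mono fun j => image_mono
    (slab_mono (Ioi_subset_Ioi (by linarith))))).trans sV
  have ψV : ∀ j, MapsTo (ψ j) (slab (Ioo (-3) β)) V := fun j p hp =>
    sV (out j p _ (Ioi_subset_Ioi (by linarith)) hp.1 (not_lt.2 hp.2.le))
  have li : ∀ p ∈ V, LI L.h g' (L.F n) p := fun p hp => li_of_eq m1 ld mt m2 hp
  have zK : ∀ j, ψ j '' slab {0} ⊆ K := by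
    rintro j _ ⟨p, hp, rfl⟩
    have : p 2 = 0 := hp
    exact out j p _ (Ioi_subset_Ioi (by norm_num)) (by linarith) (not_lt.2 this.le)
  have nK : K.Nonempty := by
    by_cases h : L.o ∈ K
    · exact ⟨_, h⟩
    obtain ⟨j, -⟩ := mem_iUnion.1 (not_not.1 h)
    exact ⟨_, zK j (mem_image_of_mem _ (show (0 : E3) ∈ slab {0} from rfl))⟩
  have e1 : K ∪ ⋃ j, ψ j '' slab (Ioo 0 β) = (⋃ j, ψ j '' slab (Ici β))ᶜ := by
    refine Subset.antisymm (union_subset (compl_subset_compl.2 (iUnion_mono fun j => image_mono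
      (slab_mono (Ici_subset_Ioi.2 (by linarith))))) (iUnion_subset fun j => ?_)) fun y hy => ?_
    · rintro _ ⟨p, hp, rfl⟩
      exact out j p _ (Ici_subset_Ioi.2 (by linarith)) (by linarith [hp.1]) (not_le.2 hp.2)
    · by_cases h : y ∈ K
      · exact Or.inl h
      obtain ⟨j, p, hp, rfl⟩ := mem_iUnion.1 (not_not.1 h)
      exact Or.inr (mem_iUnion.2 ⟨j, p, ⟨hp, not_le.1 fun h => hy (mem_iUnion.2 ⟨j, p, h, rfl⟩)⟩,
        rfl⟩)
  have s0 : slab (Ioo 0 β) ⊆ slab (Ioo (-3) β) := slab_mono (Ioo_subset_Ioo (by norm_num) le_rfl)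
  have opn : IsOpen (L.F n '' K ∪ ⋃ j ∈ (Finset.univ : Finset (Fin m)),
      (L.F n ∘ ψ j) '' slab (Ioo 0 β)) := by
    simp only [Finset.mem_univ, iUnion_true, image_comp, ← image_iUnion, ← image_union]
    refine ld.isOpen_image ?_ (union_subset KV (iUnion_subset fun j =>
      ((ψV j).mono_left s0).image_subset))
    rw [e1]
    exact (isClosed_iUnion_of_finite fun j => c4 j β (by linarith)).isOpen_compl
  have cC : IsCompact (L.F n '' K) := cK.image_of_continuousOn (ld.smooth.continuousOn.mono KV)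
  have sC : L.F n '' K ⊆ U n := (mt.mono_left KV).image_subset
  have mK := cK.isClosed.measurableSet
  have v1 : (vol L.h).real K + ∑ j, ar (a j) (b j) / 2 ≤ v := by
    have h0 : Tendsto (fun t : ℝ => Real.exp (-2 * t)) atTop (𝓝 0) :=
      Real.tendsto_exp_atBot.comp (tendsto_id.const_mul_atTop_of_neg (by norm_num))
    have h1 : Tendsto (fun t : ℝ => (vol L.h).real K +
        ∑ j, ar (a j) (b j) * (Real.exp (-2 * 0) - Real.exp (-2 * t)) / 2) atTop
        (𝓝 ((vol L.h).real K + ∑ j, ar (a j) (b j) / 2)) := by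
      refine (tendsto_finsetSum _ fun j _ => ?_).const_add _
      simpa using ((h0.const_sub (Real.exp (-2 * 0))).const_mul (ar (a j) (b j))).div_const 2
    refine le_of_tendsto h1 ((eventually_ge_atTop 0).mono fun t ht => ?_)
    have sub : Ioo 0 t ⊆ Ioi (-3) := fun u hu => lt_trans (by norm_num) hu.1
    have o : ∀ j, IsOpen (ψ j '' slab (Ioo 0 t)) := fun j =>
      (c1 j).ld.isOpen_image (isOpen_slab isOpen_Ioo) (slab_mono sub)
    have h2 : ∀ j, ar (a j) (b j) * (Real.exp (-2 * 0) - Real.exp (-2 * t)) / 2 =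
        (vol L.h).real (ψ j '' slab (Ioo 0 t)) := fun j => by
      have := (c1 j).pos
      have h3 : Real.exp (-2 * t) ≤ Real.exp (-2 * 0) := Real.exp_le_exp.2 (by linarith)
      rw [Measure.real, hV L.X univ L.h (ψ j) (a j) (b j) 0 t ht ((c1 j).mono isOpen_Ioo sub),
        ENNReal.toReal_ofReal (div_nonneg (mul_nonneg this.le (sub_nonneg.2 h3)) two_pos.le)]
    have fin : ∀ A, vol L.h A ≠ ⊤ := fun A => measure_ne_top_of_subset (subset_univ A) vf
    simp only [h2]
    rw [← measureReal_iUnion_fintype (fun i j h => (c2 i j h).mono (image_mono (slab_mono sub))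
        (image_mono (slab_mono sub))) (fun j => (o j).measurableSet) fun j => fin _,
      ← measureReal_union (disjoint_compl_left.mono_right (iUnion_mono fun j => image_mono
        (slab_mono Ioo_subset_Ioi_self))) (isOpen_iUnion o).measurableSet (fin _) (fin _)]
    refine (measureReal_mono (subset_univ _) vf).trans (ENNReal.toReal_le_of_le_ofReal ?_ v0)
    refine le_of_forall_pos_le_add fun ε hε => ?_
    obtain ⟨n, hn⟩ := (H.vol ε hε).exists
    exact measureReal_nonneg.trans hn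
  refine piece_false hF hV hG (l := s) H.low hβ hs.le a b Finset.univ (M n) g' (U n) (L.F n '' K)
    (fun j => L.F n ∘ ψ j) ⟨H.mem n, m1, m3, fun j _ => ?_, fun i _ j _ h => ?_, cC, sC,
      nK.image _, ?_, fun j _ => ?_, opn, ?_, ?_, fun k _ => hp k⟩ fun h0 => (hn ?_).elim
  · exact ((c1 j).mono isOpen_Ioo Ioo_subset_Ioi_self).map ld inj (ψV j) mt
      fun p hp => m2 _ (ψV j hp)
  · rw [image_comp, image_comp]
    exact ((c2 i j h).mono (image_mono (slab_mono Ioo_subset_Ioi_self))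
      (image_mono (slab_mono Ioo_subset_Ioi_self))).image inj (ψV i).image_subset
      (ψV j).image_subset
  · rintro _ ⟨p, hp, rfl⟩
    rw [← (li p (KV hp)).Sc]; exact sc p
  · rw [image_comp]; exact image_mono (zK j)
  · rwa [Measure.real, vol_of_eq ld inj (fun p hp => m2 p (KV hp)) cK.isLindelof mK KV]
  · exact add_le_add_left (m4.trans (mul_le_mul_of_nonneg_left m5 (by positivity))) _
  · rw [h0] at opn
    have e := eq_of_clopen (H.mem n).isOpen (H.mem n).hs (H.mem n).conn cC (by simpa using opn) sC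
      (nK.image _)
    refine hL G (M n) (U n) g' (H.mem n) m1 fun y hy => ?_
    obtain ⟨p, hp, rfl⟩ := e ▸ hy
    rw [← (li p (KV hp)).SecGe, ← (li p (KV hp)).SecLe]
    exact hc p (mem_univ p)

theorem goal_of (h0 : T0) (h1 : CUT) (h2 : THIN) (hL : HLIN) (hH : HYP) (hC : CVOL) (hF : FILL)
    (hG : GF2) (hV : VD) (hE : EIN) (L0 : LIM0) (L1 : LIM1) : GOAL := by
  intro E _ _ _ M _ _ _ _ _ _ _ _ h3 hf
  obtain ⟨G, _, p1, p2, N, _, _, _, U, g, p3, p4⟩ := h0 E M h3 hf
  obtain ⟨w, hw, p5⟩ := h2 G p1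
  obtain ⟨v, l, M', _, _, _, _, _, U', g', x, L, p6, p7⟩ :=
    exists_mini hG P216J.rmin L0 L1 hV hE hw (h1 G p1) p5 (P216J.imgClosed G)
      (fun _ _ _ _ h => h.2) p3 p4
  exact mini_false hH hL hF hC p1 p2 p6 L p7

end Vale.Agent.P216C
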